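import Vale.Agent.P150.Weak.Found.Deriv
import Vale.Agent.P150.Weak.Rec.Line

/-!
The fifth joint cumulant, as the field derivative of the fourth.
-/

open MeasureTheory Finset

namespace Vale.Agent.P150.Weak.RespSoft

open Gap

variable {m : ℕ}

/-- The fifth joint cumulant. -/
noncomputable def cm5 (J : Mat m) (u : Vec m) (i j k l p : Fin m) : ℝ :=
  (ev J u fun x => csp J u i x * csp J u j x * csp J u k x * csp J u l x * csp J u p x) -
    (cm3 J u i j k * cm2 J u l p + cm3 J u i j l * cm2 J u k p + cm3 J u i k l * cm2 J u j p +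
      cm3 J u j k l * cm2 J u i p + cm3 J u i j p * cm2 J u k l + cm3 J u i k p * cm2 J u j l +
      cm3 J u i l p * cm2 J u j k + cm3 J u j k p * cm2 J u i l + cm3 J u j l p * cm2 J u i k +
      cm3 J u k l p * cm2 J u i j)

lemma cm5_swap45 (J : Mat m) (u : Vec m) (i j k l p : Fin m) :
    cm5 J u i j k l p = cm5 J u i j k p l := by
  simp only [cm5, mul_right_comm _ (csp J u l _) (csp J u p _), cm2_comm J u p l,
    cm3_swap23 J u i p l, cm3_swap23 J u j p l, cm3_swap23 J u k p l]
  ring

/-- A Gibbs average of a field dependent observable. -/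
lemma hasDerivAt_ev_dep (J : Mat m) (u : Vec m) (p : Fin m) {G : ℝ → Conf m → ℝ}
    {G' : Conf m → ℝ} (t : ℝ) (h : ∀ x, HasDerivAt (fun s => G s x) (G' x) t) :
    HasDerivAt (fun s => ev J (Function.update u p s) (G s))
      (ev J (Function.update u p t) (fun x => G t x * csp J (Function.update u p t) p x) +
        ev J (Function.update u p t) G') t := by
  have hmu : ∀ x, HasDerivAt (fun s => mu J (Function.update u p s) x)
      (mu J (Function.update u p t) x * csp J (Function.update u p t) p x) t := by
    intro x
    have e : ∀ w, mu J w x = ev J w (fun y => if y = x then 1 else 0) := fun w => by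
      simp [ev]
    simp only [e]
    refine (hasDerivAt_ev_field J u p (fun y => if y = x then 1 else 0) t).congr_deriv ?_
    simp only [ev, mul_ite, mul_one, mul_zero, ite_mul, one_mul, zero_mul, sum_ite_eq', mem_univ,
      if_true, csp]
    ring
  refine (HasDerivAt.fun_sum fun x _ => (hmu x).mul (h x)).congr_deriv ?_
  simp only [ev, ← sum_add_distrib]
  exact sum_congr rfl fun x _ => by ring

lemma hasDerivAt_csp (J : Mat m) (u : Vec m) (i p : Fin m) (x : Conf m) (t : ℝ) :
    HasDerivAt (fun s => csp J (Function.update u p s) i x)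
      (-cm2 J (Function.update u p t) i p) t :=
  (hasDerivAt_mg J u i p t).const_sub (spin x i)

/-- The field derivative of the fourth cumulant. -/
lemma hasDerivAt_cm4 (J : Mat m) (u : Vec m) (i j k l p : Fin m) (t : ℝ) :
    HasDerivAt (fun s => cm4 J (Function.update u p s) i j k l)
      (cm5 J (Function.update u p t) i j k l p) t := by
  have c := fun a x => hasDerivAt_csp J u a p x t
  have C := fun a b => hasDerivAt_cm2 J u a b p t
  refine ((((hasDerivAt_ev_dep J u p t fun x =>
    (((c i x).mul (c j x)).mul (c k x)).mul (c l x)).sub ((C i j).mul (C k l))).sub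
    ((C i k).mul (C j l))).sub ((C i l).mul (C j k))).congr_deriv ?_
  set w := Function.update u p t
  have e : ∀ a b d : Fin m, ev J w (fun x => csp J w a x * csp J w b x * csp J w d x) = cm3 J w a b d :=
    fun _ _ _ => rfl
  have e2 : ev J w (fun x => (-cm2 J w i p * csp J w j x + csp J w i x * -cm2 J w j p) * csp J w k x *
        csp J w l x + csp J w i x * csp J w j x * -cm2 J w k p * csp J w l x +
        csp J w i x * csp J w j x * csp J w k x * -cm2 J w l p) =
      -cm2 J w i p * cm3 J w j k l + -cm2 J w j p * cm3 J w i k l + -cm2 J w k p * cm3 J w i j l +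
        -cm2 J w l p * cm3 J w i j k := by
    simp only [← e, ← ev_smul, ← ev_add]
    exact congrArg _ (funext fun x => by ring)
  simp only [Pi.mul_apply]
  rw [← show ev J w (fun x => (-cm2 J w i p * csp J w j x + csp J w i x * -cm2 J w j p) * csp J w k x *
        csp J w l x + csp J w i x * csp J w j x * -cm2 J w k p * csp J w l x +
        csp J w i x * csp J w j x * csp J w k x * -cm2 J w l p) =
      ev J w (fun x => ((-cm2 J w i p * csp J w j x + csp J w i x * -cm2 J w j p) * csp J w k x +
          csp J w i x * csp J w j x * -cm2 J w k p) * csp J w l x +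
        csp J w i x * csp J w j x * csp J w k x * -cm2 J w l p) from
      congrArg (ev J w) (funext fun x => by ring), e2]
  simp only [cm5]
  ring

lemma abs_cm5_le (J : Mat m) (u : Vec m) (i j k l p : Fin m) : |cm5 J u i j k l p| ≤ 352 := by
  have h5 : |ev J u fun x =>
      csp J u i x * csp J u j x * csp J u k x * csp J u l x * csp J u p x| ≤ 32 :=
    abs_ev_le fun x => by
      simp only [abs_mul]
      calc _ ≤ (2:ℝ) * 2 * 2 * 2 * 2 := by gcongr <;> exact abs_csp_le ..
        _ = 32 := by norm_num
  have h : ∀ a b c d e : Fin m, |cm3 J u a b c * cm2 J u d e| ≤ 32 := fun a b c d e => by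
    rw [abs_mul]
    calc _ ≤ (8:ℝ) * 4 := by gcongr <;> [exact abs_cm3_le ..; exact abs_cm2_le ..]
      _ = 32 := by norm_num
  have := abs_le.1 h5
  have := abs_le.1 (h i j k l p)
  have := abs_le.1 (h i j l k p)
  have := abs_le.1 (h i k l j p)
  have := abs_le.1 (h j k l i p)
  have := abs_le.1 (h i j p k l)
  have := abs_le.1 (h i k p j l)
  have := abs_le.1 (h i l p j k)
  have := abs_le.1 (h j k p i l)
  have := abs_le.1 (h j l p i k)
  have := abs_le.1 (h k l p i j)
  rw [cm5, abs_le]
  constructor <;> linarith

lemma continuous_cm5 (i j k l p : Fin m) :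
    Continuous fun q : Mat m × Vec m => cm5 q.1 q.2 i j k l p := by
  have e : Continuous fun q : Mat m × Vec m => ev q.1 q.2 fun x => csp q.1 q.2 i x *
      csp q.1 q.2 j x * csp q.1 q.2 k x * csp q.1 q.2 l x * csp q.1 q.2 p x := by
    have hmu : ∀ x, Continuous fun q : Mat m × Vec m => mu q.1 q.2 x := fun x => by
      simp only [mu, wt, expo]
      exact Continuous.div₀ (by fun_prop) (by fun_prop) fun z =>
        (sum_pos (fun y _ => Real.exp_pos _) univ_nonempty).ne'
    have hc : ∀ a x, Continuous fun q : Mat m × Vec m => csp q.1 q.2 a x := fun a x =>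
      continuous_const.sub (continuous_mg a)
    simp only [ev]
    exact continuous_finsetSum _ fun x _ => (hmu x).mul
      (((((hc i x).mul (hc j x)).mul (hc k x)).mul (hc l x)).mul (hc p x))
  have P := fun a b c d f => (continuous_cm3 (m := m) a b c).mul (continuous_cm2 d f)
  exact e.sub (((((((((( P i j k l p).add (P i j l k p)).add (P i k l j p)).add (P j k l i p)).add
    (P i j p k l)).add (P i k p j l)).add (P i l p j k)).add (P j k p i l)).add (P j l p i k)).add
    (P k l p i j))

lemma differentiable_cm4 (J : Mat m) (i j k l : Fin m) :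
    Differentiable ℝ fun u : Vec m => cm4 J u i j k l := by
  simp only [cm4_eq]
  have e := fun f => Rec.differentiable_ev (m := m) J f
  have g := fun a => Rec.differentiable_mg (m := m) J a
  have c := fun a b => Rec.differentiable_cm2 (m := m) J a b
  fun_prop

lemma hasDerivAt_cm4_line (J : Mat m) (u a : Vec m) (i j k l : Fin m) (t : ℝ) :
    HasDerivAt (fun s => cm4 J (u + s • a) i j k l) (∑ p, a p * cm5 J (u + t • a) i j k l p) t :=
  Rec.hasDerivAt_line (differentiable_cm4 J i j k l) (D := fun p w => cm5 J w i j k l p)
    (fun p w => by simpa [Function.update_eq_self] using hasDerivAt_cm4 J w i j k l p (w p)) u a t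

end Vale.Agent.P150.Weak.RespSoft
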