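import Vale.Agent.P150.Weak.RespSoft.Obs
import Vale.Agent.P150.Weak.Found.Deriv

/-!
Row means: Jensen, averages along the segment of translations, and the row mean of `bar T`.
-/

open MeasureTheory ProbabilityTheory Finset

namespace Vale.Agent.P150.Weak.RespSoft

open Gap

variable {m : ℕ} {κ : Type*} [Fintype κ] {b : ℝ} {n : ℕ} {τ : ℝ}

lemma sq_rowMean_le {ψ : Obs m} (hψ : Row3 ψ) (v : ℝ) (G : Mat m) (h : Vec m) :
    rowMean v ψ G h ^ 2 ≤ rowMean v (fun G h x => ψ G h x ^ 2) G h := by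
  have ht := hψ.tame_slice v G h
  have := Rec.sq_integral_le (μ := gauss (Fin m)) ht.integrable (ht.pow 2).integrable
  simpa [rowMean] using this

/-- Squared row means are integrable, and at most the row mean square. -/
theorem mean_sq_le {Ψ : κ → Obs m} (hψ : ∀ a, Row3 (Ψ a)) (i : Fin (m + 1)) :
    Integrable (fun g => ∑ a, rowMean (b ^ 2 / n) (Ψ a) (plJ (b ^ 2 / n) g) (plU τ g) ^ 2)
        (gauss (Idx m)) ∧
      pEv b n m τ (fun G h => ∑ a, rowMean (b ^ 2 / n) (Ψ a) G h ^ 2) ≤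
        pEv b n (m + 1) τ (fun J u => ∑ a, at3 i (Ψ a) J u ^ 2) := by
  set v := b ^ 2 / (n:ℝ)
  have hi : ∀ a, Integrable (fun g => rowMean v (Ψ a) (plJ v g) (plU τ g) ^ 2) (gauss (Idx m)) := by
    intro a
    refine ((pEv_at3 (b := b) (n := n) (τ := τ) (hψ a).sq i).2).mono'
      ((aestronglyMeasurable_rowMean (hψ a) v τ).pow 2) (ae_of_all _ fun g => ?_)
    rw [Real.norm_eq_abs, abs_of_nonneg (sq_nonneg _)]
    exact sq_rowMean_le (hψ a) v _ _
  refine ⟨integrable_finsetSum _ fun a _ => hi a, ?_⟩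
  have hS : Row3 (fun G h x => ∑ a, Ψ a G h x ^ 2) := Row3.sum fun a => (hψ a).sq
  obtain ⟨e, i1⟩ := pEv_at3 (b := b) (n := n) (τ := τ) hS i
  have e' : pEv b n (m + 1) τ (fun J u => ∑ a, at3 i (Ψ a) J u ^ 2) = _ := e
  rw [e']
  refine integral_mono (integrable_finsetSum _ fun a _ => hi a) i1 fun g => ?_
  refine (sum_le_sum fun a _ => sq_rowMean_le (hψ a) v (plJ v g) (plU τ g)).trans_eq ?_
  exact (integral_finsetSum _ fun a _ =>
    ((hψ a).sq.tame_slice v (plJ v g) (plU τ g)).integrable).symm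

/-- The average over a row and over the segment of translations. -/
noncomputable def segAvg (v : ℝ) (ψ : Mat m → Vec m → ℝ) (G : Mat m) (h : Vec m) : ℝ :=
  ∫ r, ∫ s, ψ G (h + fun k => s * v + √v * r k) ∂(Rec.seg) ∂gauss (Fin m)

lemma integrable_segAvg {ψ : Mat m → Vec m → ℝ} (hψ : Rec.Bd ψ) (v τ : ℝ) :
    Integrable (fun g => segAvg v ψ (plJ v g) (plU τ g)) (gauss (Idx m)) := by
  obtain ⟨B, hB⟩ := hψ.2
  refine Integrable.of_bound (C := |B| * Rec.seg.real Set.univ) ?_ (ae_of_all _ fun g => ?_)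
  · have hc : StronglyMeasurable fun q : ((Idx m → ℝ) × (Fin m → ℝ)) × ℝ =>
        ψ (plJ v q.1.1) (plU τ q.1.1 + fun k => q.2 * v + √v * q.1.2 k) :=
      (hψ.1.comp (f := fun q : ((Idx m → ℝ) × (Fin m → ℝ)) × ℝ =>
        (plJ v q.1.1, plU τ q.1.1 + fun k => q.2 * v + √v * q.1.2 k))
        (((continuous_plJ v).comp (continuous_fst.comp continuous_fst)).prodMk
          (((continuous_plU τ).comp (continuous_fst.comp continuous_fst)).add
            (by fun_prop)))).stronglyMeasurable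
    exact hc.integral_prod_right'.integral_prod_right'.aestronglyMeasurable
  · refine (norm_integral_le_of_norm_le_const (C := |B| * Rec.seg.real Set.univ)
      (ae_of_all _ fun r => norm_integral_le_of_norm_le_const (C := |B|)
        (ae_of_all _ fun s => (hB _ _).trans (le_abs_self _)))).trans ?_
    simp

/-- An observable below a segment average is crude. -/
theorem seg_le (hτ : 0 ≤ τ) (hmn : m ≤ n) {ψ f : Mat m → Vec m → ℝ} (hψ : Rec.Bd ψ) {c : ℝ}
    (hc : 0 ≤ c) (h0 : ∀ G h, 0 ≤ f G h)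
    (hle : ∀ G h, f G h ≤ c * segAvg (b ^ 2 / n) ψ G h) :
    pEv b n m τ f ≤ c * (2 * (Real.exp (2 * b ^ 2) *
      √(pEv b n m (τ + b ^ 2 / n) fun J u => ψ J u ^ 2))) := by
  refine (integral_mono_of_nonneg (ae_of_all _ fun g => h0 _ _)
    ((integrable_segAvg hψ (b ^ 2 / n) τ).const_mul c) (ae_of_all _ fun g => hle _ _)).trans ?_
  rw [integral_const_mul]
  exact mul_le_mul_of_nonneg_left (Rec.mean_avg_le hψ hτ hmn) hc

/-- `K = E bar T`, the row mean of `bar T`. -/
noncomputable def kR (v : ℝ) (G : Mat m) (h : Vec m) (a c e : Fin m) : ℝ :=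
  rowMean v (barX fun G h => cm3 G h a c e) G h

lemma kbar_eq (v : ℝ) (i : Fin (m + 1)) (J : Mat (m + 1)) (u : Vec (m + 1)) (a c e : Fin m) :
    kbar v i J u a c e = kR v (sub i J) (subU i u) a c e := rfl

lemma bd_kR (v : ℝ) (a c e : Fin m) : Rec.Bd fun G h => kR v G h a c e := by
  have hb := Row3.barX (Rec.bd_cm3 (m := m) a c e)
  have hB : ∀ (G : Mat m) (h x : Vec m), |barX (fun G h => cm3 G h a c e) G h x| ≤ 8 := by
    intro G h x
    have h1 := abs_le.1 (abs_cm3_le G (h + x) a c e)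
    have h2 := abs_le.1 (abs_cm3_le G (h - x) a c e)
    simp only [barX, abs_le]
    constructor <;> linarith
  refine Rec.Bd.of_le (B := 8) ?_ fun G h => ?_
  · exact continuous_of_dominated
      (fun q => ((hb.tame_slice v q.1 q.2).1).aestronglyMeasurable)
      (fun q => ae_of_all _ fun r => hB _ _ _) (integrable_const 8)
      (ae_of_all _ fun r => hb.1.comp (f := fun q : Mat m × Vec m => (q, Rec.rv v r)) (by fun_prop))
  · have := norm_integral_le_of_norm_le_const (μ := gauss (Fin m))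
      (f := fun r : Fin m → ℝ => barX (fun G h => cm3 G h a c e) G h (Rec.rv v r)) (C := 8)
      (ae_of_all _ fun r => hB G h (Rec.rv v r))
    rw [probReal_univ, mul_one] at this
    exact this

lemma kR_symm (v : ℝ) (G : Mat m) (h : Vec m) (a c e : Fin m) :
    kR v G h a c e = kR v G h a e c := by
  simp only [kR, cm3_swap23 _ _ a c e]

lemma lineDer1_mg (a : Fin m) :
    LineDer1 (fun G u => mg G u a) (fun k G u => cm2 G u a k) :=
  fun G u c t => Rec.hasDerivAt_mg_line G u c a t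

lemma lineDer1_cm2 (a c : Fin m) :
    LineDer1 (fun G u => cm2 G u a c) (fun k G u => cm3 G u a c k) :=
  fun G u w t => Rec.hasDerivAt_cm2_line G u w a c t

lemma lineDer1_cm3 (a c e : Fin m) :
    LineDer1 (fun G u => cm3 G u a c e) (fun k G u => cm4 G u a c e k) :=
  fun G u w t => Rec.hasDerivAt_cm3_line G u w a c e t

end Vale.Agent.P150.Weak.RespSoft
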