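import Vale.Agent.P150.Weak.Rec.Est
import Vale.Agent.P150.Weak.Spec

/-!
The small terms of a row of linear response: everything that follows from the soft second moments
and the crude moments without looking inside the row.
-/

open MeasureTheory ProbabilityTheory Finset Real

namespace Vale.Agent.P150.Weak.RespSoft

open Gap

variable {b : ℝ} {X Y Z : ℕ → ℝ}

/-- Eventually at most `ε X n`, uniformly in the admissible parameters. -/
def Small (X : ℕ → ℝ) (f : ℕ → ℕ → ℝ → ℝ) : Prop :=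
  ∀ η Tm ε : ℝ, ∀ k : ℕ, 0 < η → 0 < ε → ∃ N : ℕ, ∀ n m : ℕ, ∀ τ : ℝ,
    η ≤ τ → τ ≤ Tm → N ≤ n → m ≤ n → n ≤ m + k → f n m τ ≤ ε * X n

/-- Eventually at most `ε X n`, uniformly in the spin and the admissible parameters. -/
def RS (X : ℕ → ℝ) (f : ℕ → (m : ℕ) → Fin (m + 1) → ℝ → ℝ) : Prop :=
  ∀ η Tm ε : ℝ, ∀ k : ℕ, 0 < η → 0 < ε → ∃ N : ℕ, ∀ n m : ℕ, ∀ i : Fin (m + 1), ∀ τ : ℝ,
    η ≤ τ → τ ≤ Tm → N ≤ n → m + 1 ≤ n → n ≤ m + 1 + k → f n m i τ ≤ ε * X n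

/-- An expectation as a function of the parameters. -/
noncomputable def E0 (b : ℝ) (F : (m : ℕ) → Mat m → Vec m → ℝ) : ℕ → ℕ → ℝ → ℝ :=
  fun n m τ => pEv b n m τ (F m)

/-- An expectation at a spin as a function of the parameters. -/
noncomputable def E1 (b : ℝ) (F : (m : ℕ) → Fin (m + 1) → Mat (m + 1) → Vec (m + 1) → ℝ) :
    ℕ → (m : ℕ) → Fin (m + 1) → ℝ → ℝ :=
  fun n m i τ => pEv b n (m + 1) τ (F m i)

lemma exists_large (c : ℝ) {ε : ℝ} (hε : 0 < ε) :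
    ∃ N : ℕ, ∀ n : ℕ, N ≤ n → 0 < n ∧ c ≤ ε * √(n:ℝ) := by
  obtain ⟨N, hN⟩ := exists_nat_ge ((c / ε) ^ 2)
  refine ⟨N + 1, fun n hn => ⟨by omega, ?_⟩⟩
  have h : |c / ε| ≤ √(n:ℝ) := Real.abs_le_sqrt (hN.trans (Nat.cast_le.2 (by omega)))
  calc c = ε * (c / ε) := by field_simp
    _ ≤ ε * √(n:ℝ) := mul_le_mul_of_nonneg_left ((le_abs_self _).trans h) hε.le

namespace Small

variable {f : ℕ → ℕ → ℝ → ℝ}

lemma of_bound (h : ∀ η Tm : ℝ, 0 < η → ∃ C : ℝ, ∀ n m : ℕ, ∀ τ : ℝ,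
      η ≤ τ → τ ≤ Tm → 0 < n → m ≤ n → f n m τ ≤ C * Y n)
    (hY : ∀ n, 0 ≤ Y n) (hXY : ∀ n, Y n * √(n:ℝ) ≤ X n) : Small X f := by
  intro η Tm ε k hη hε
  obtain ⟨C, hC⟩ := h η Tm hη
  obtain ⟨N, hN⟩ := exists_large C hε
  refine ⟨N, fun n m τ h1 h2 hn hm _ => ?_⟩
  obtain ⟨hn0, hc⟩ := hN n hn
  refine (hC n m τ h1 h2 hn0 hm).trans ((mul_le_mul_of_nonneg_right hc (hY n)).trans ?_)
  rw [mul_assoc, mul_comm _ (Y n)]
  exact mul_le_mul_of_nonneg_left (hXY n) hε.le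

lemma shift (h : Small X f) : RS X fun n m _ τ => f n m (τ + b ^ 2 / n) := by
  intro η Tm ε k hη hε
  obtain ⟨N, hN⟩ := h η (Tm + b ^ 2) ε (k + 1) hη hε
  refine ⟨max N 1, fun n m i τ h1 h2 hn hm hk => ?_⟩
  simp only [max_le_iff] at hn
  have h0 : 0 ≤ b ^ 2 / (n:ℝ) := by positivity
  have h3 : b ^ 2 / (n:ℝ) ≤ b ^ 2 := div_le_self (sq_nonneg b) (by exact_mod_cast hn.2)
  exact hN n m _ (by linarith) (by linarith) hn.1 (by omega) (by omega)

end Small

namespace RS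

variable {f g : ℕ → (m : ℕ) → Fin (m + 1) → ℝ → ℝ}

lemma mono (h : RS X f) (hle : ∀ n m i τ, 0 ≤ τ → 0 < n → m + 1 ≤ n → g n m i τ ≤ f n m i τ) :
    RS X g := by
  intro η Tm ε k hη hε
  obtain ⟨N, hN⟩ := h η Tm ε k hη hε
  exact ⟨N, fun n m i τ h1 h2 hn hm hk =>
    (hle n m i τ (by linarith) (by omega) hm).trans (hN n m i τ h1 h2 hn hm hk)⟩

lemma add (hf : RS X f) (hg : RS X g) : RS X fun n m i τ => f n m i τ + g n m i τ := by
  intro η Tm ε k hη hε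
  obtain ⟨N₁, h₁⟩ := hf η Tm (ε / 2) k hη (half_pos hε)
  obtain ⟨N₂, h₂⟩ := hg η Tm (ε / 2) k hη (half_pos hε)
  refine ⟨max N₁ N₂, fun n m i τ a c hn hm hk => ?_⟩
  simp only [max_le_iff] at hn
  linarith [h₁ n m i τ a c hn.1 hm hk, h₂ n m i τ a c hn.2 hm hk]

lemma scale (hf : RS X f) (c : ℕ → ℝ) (A : ℝ) (hc : ∀ n, 0 < n → 0 ≤ c n)
    (hZ : ∀ n, 0 ≤ Z n) (h : ∀ n, 0 < n → c n * X n ≤ A * Z n) :
    RS Z fun n m i τ => c n * f n m i τ := by
  intro η Tm ε k hη hε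
  obtain ⟨N, hN⟩ := hf η Tm (ε / (|A| + 1)) k hη (by positivity)
  refine ⟨N, fun n m i τ h1 h2 hn hm hk => ?_⟩
  refine (mul_le_mul_of_nonneg_left (hN n m i τ h1 h2 hn hm hk) (hc n (by omega))).trans ?_
  rw [mul_left_comm]
  refine (mul_le_mul_of_nonneg_left (h n (by omega)) (by positivity)).trans ?_
  rw [← mul_assoc]
  refine mul_le_mul_of_nonneg_right ?_ (hZ n)
  rw [div_mul_eq_mul_div, div_le_iff₀ (by positivity)]
  nlinarith [le_abs_self A, mul_le_mul_of_nonneg_left (le_abs_self A) hε.le]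

lemma const_mul (hf : RS X f) {c : ℝ} (hc : 0 ≤ c) (hX : ∀ n, 0 ≤ X n) :
    RS X fun n m i τ => c * f n m i τ :=
  hf.scale (fun _ => c) c (fun _ _ => hc) hX fun _ _ => le_rfl

lemma rsqrt (hf : RS Z f) (hX : ∀ n, 0 ≤ X n) (h : ∀ n, Z n ≤ X n ^ 2) :
    RS X fun n m i τ => √(f n m i τ) := by
  intro η Tm ε k hη hε
  obtain ⟨N, hN⟩ := hf η Tm (ε ^ 2) k hη (by positivity)
  refine ⟨N, fun n m i τ h1 h2 hn hm hk => ?_⟩
  rw [sqrt_le_left (mul_nonneg hε.le (hX n)), mul_pow]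
  exact (hN n m i τ h1 h2 hn hm hk).trans (mul_le_mul_of_nonneg_left (h n) (sq_nonneg ε))

lemma of_bound (h : ∀ Tm : ℝ, ∃ C : ℝ, ∀ n m i τ, 0 ≤ τ → τ ≤ Tm → 0 < n → m + 1 ≤ n →
      f n m i τ ≤ C * Y n) (hY : ∀ n, 0 ≤ Y n) (hXY : ∀ n, Y n * √(n:ℝ) ≤ X n) : RS X f := by
  intro η Tm ε k hη hε
  obtain ⟨C, hC⟩ := h Tm
  obtain ⟨N, hN⟩ := exists_large C hε
  refine ⟨N, fun n m i τ h1 h2 hn hm _ => ?_⟩
  obtain ⟨hn0, hc⟩ := hN n hn
  refine (hC n m i τ (by linarith) h2 hn0 hm).trans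
    ((mul_le_mul_of_nonneg_right hc (hY n)).trans ?_)
  rw [mul_assoc, mul_comm _ (Y n)]
  exact mul_le_mul_of_nonneg_left (hXY n) hε.le

end RS

/-- Squares of soft moments are soft, by a crude third moment. -/
theorem soft_sq {φ : (m : ℕ) → Mat m → Vec m → ℝ} (hb : ∀ m, Rec.Bd (φ m))
    (h0 : ∀ m J u, 0 ≤ φ m J u) (h1 : Small (fun n => (n:ℝ) ^ 2) (E0 b φ))
    (h3 : ∃ C : ℝ, ∀ n m : ℕ, ∀ τ : ℝ, 0 ≤ τ → 0 < n → m ≤ n →
      pEv b n m τ (fun J u => φ m J u ^ 3) ≤ C * ((n:ℝ) ^ 2) ^ 3) :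
    Small (fun n => (n:ℝ) ^ 4) (E0 b fun m J u => φ m J u ^ 2) := by
  intro η Tm ε k hη hε
  obtain ⟨C, hC⟩ := h3
  set t := |C| / ε + 1 with ht
  have ht0 : 0 < t := by positivity
  obtain ⟨N, hN⟩ := h1 η Tm (ε / t) k hη (by positivity)
  refine ⟨max N 1, fun n m τ a c hn hm hk => ?_⟩
  simp only [max_le_iff] at hn
  have hn0 : 0 < n := by omega
  have hn' : (0:ℝ) < n := Nat.cast_pos.2 hn0
  have i1 : pEv b n m τ (φ m) ≤ ε / t * (n:ℝ) ^ 2 := hN n m τ a c hn.1 hm hk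
  have i3 := hC n m τ (by linarith) hn0 hm
  set A := t * (n:ℝ) ^ 2 with hA
  have hA0 : 0 < A := by positivity
  have hle : pEv b n m τ (fun J u => φ m J u ^ 2) ≤
      pEv b n m τ (fun J u => A / 2 * φ m J u + (2 * A)⁻¹ * φ m J u ^ 3) := by
    refine Rec.pEv_mono ((hb m).pow 2) (((hb m).const_mul _).add (((hb m).pow 3).const_mul _))
      fun J u _ => ?_
    rw [inv_mul_eq_div, div_mul_eq_mul_div, div_add_div _ _ two_ne_zero (by positivity),
      le_div_iff₀ (by positivity)]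
    nlinarith [mul_nonneg (h0 m J u) (sq_nonneg (A - φ m J u))]
  show pEv b n m τ (fun J u => φ m J u ^ 2) ≤ _
  refine hle.trans ?_
  rw [Rec.pEv_add ((hb m).const_mul _) (((hb m).pow 3).const_mul _), Rec.pEv_const_mul,
    Rec.pEv_const_mul]
  have e1 : A / 2 * pEv b n m τ (φ m) ≤ ε / 2 * (n:ℝ) ^ 4 := by
    refine (mul_le_mul_of_nonneg_left i1 (by positivity)).trans_eq ?_
    rw [hA]; field_simp
  have e2 : (2 * A)⁻¹ * pEv b n m τ (fun J u => φ m J u ^ 3) ≤ ε / 2 * (n:ℝ) ^ 4 := by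
    refine (mul_le_mul_of_nonneg_left i3 (by positivity)).trans ?_
    rw [hA, inv_mul_eq_div, div_le_iff₀ (by positivity)]
    have : C ≤ ε * t := by
      rw [ht, mul_add, mul_one, mul_div_cancel₀ _ hε.ne']
      linarith [le_abs_self C]
    nlinarith [mul_le_mul_of_nonneg_right this (by positivity : (0:ℝ) ≤ ((n:ℝ) ^ 2) ^ 3)]
  linarith

section family

variable {κ : ℕ → Type} [∀ m, Fintype (κ m)] {φ : (m : ℕ) → κ m → Mat m → Vec m → ℝ}
  {D : (m : ℕ) → κ m → Fin m → Mat m → Vec m → ℝ}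

/-- Half sums of soft families. -/
theorem bar_rs (hφ : ∀ m a, Rec.Bd (φ m a))
    (h : Small (fun n => (n:ℝ) ^ 4) (E0 b fun m G u => (∑ a, φ m a G u ^ 2) ^ 2)) :
    RS (fun n => (n:ℝ) ^ 2) (E1 b fun m i J u => ∑ a, bar i (φ m a) J u ^ 2) := by
  refine ((h.shift (b := b)).rsqrt (X := fun n => (n:ℝ) ^ 2) (fun n => by positivity)
    (fun n => le_of_eq (by ring)) |>.const_mul (exp_nonneg (2 * b ^ 2))
    fun n => by positivity).mono fun n m i τ hτ hn hm => ?_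
  have := Rec.bar_pow_crude (b := b) (φ := φ m) (hφ m) hτ (show m ≤ n by omega) i 1
  simpa [E1, E0] using this

/-- Half differences of soft families. -/
theorem del_crude_rs (hφ : ∀ m a, Rec.Bd (φ m a))
    (h : Small (fun n => (n:ℝ) ^ 4) (E0 b fun m G u => (∑ a, φ m a G u ^ 2) ^ 2)) :
    RS (fun n => (n:ℝ) ^ 2) (E1 b fun m i J u => ∑ a, del i (φ m a) J u ^ 2) := by
  refine ((h.shift (b := b)).rsqrt (X := fun n => (n:ℝ) ^ 2) (fun n => by positivity)
    (fun n => le_of_eq (by ring)) |>.const_mul (exp_nonneg (2 * b ^ 2))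
    fun n => by positivity).mono fun n m i τ hτ hn hm => ?_
  have := Rec.del_pow_crude (b := b) (φ := φ m) (hφ m) hτ (show m ≤ n by omega) i 1
  simpa [E1, E0] using this

/-- Half differences of families with soft derivatives. -/
theorem del_rs (hφ : ∀ m a, Rec.Bd (φ m a)) (hD : ∀ m a k, Rec.Bd (D m a k))
    (hd : ∀ m, Rec.LineDer (φ m) (D m))
    (h4 : Small (fun n => (n:ℝ) ^ 4) (E0 b fun m G u => (∑ a, ∑ k, D m a k G u ^ 2) ^ 2))
    (h6 : Small (fun n => (n:ℝ) ^ 6) (E0 b fun m G u => Rec.tot (D m) G u ^ 2)) :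
    RS (fun n => (n:ℝ)) (E1 b fun m i J u => ∑ a, del i (φ m a) J u ^ 2) := by
  have hb := bar_rs (b := b) (φ := fun m (ak : κ m × Fin m) => D m ak.1 ak.2)
    (fun m ak => hD m ak.1 ak.2) (by simpa only [Fintype.sum_prod_type] using h4)
  have ht := (h6.shift (b := b)).rsqrt (X := fun n => (n:ℝ) ^ 3) (fun n => by positivity)
    fun n => le_of_eq (by ring)
  refine ((ht.scale (Z := fun n => (n:ℝ)) (fun n => (b ^ 2 / n) ^ 2 * exp (2 * b ^ 2))
      (b ^ 4 * exp (2 * b ^ 2)) (fun n _ => by positivity) (fun n => by positivity) fun n hn => ?_).add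
    (hb.scale (Z := fun n => (n:ℝ)) (fun n => b ^ 2 / n) (b ^ 2) (fun n _ => by positivity)
      (fun n => by positivity) fun n hn => ?_)).mono fun n m i τ hτ hn hm => ?_
  · have : (n:ℝ) ≠ 0 := by positivity
    exact le_of_eq (by field_simp)
  · have : (n:ℝ) ≠ 0 := by positivity
    exact le_of_eq (by field_simp)
  have := Rec.del_sq_le (b := b) hτ (show m ≤ n by omega) i (hφ m) (hD m) (hd m)
  simpa only [E1, E0, Fintype.sum_prod_type] using this

end family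

section soft

variable (hC : CrudeSpec b) (hG : GrowSpec b)

include hC in
lemma small_T1 (hS : SoftSpec b) :
    Small (fun n => (n:ℝ) ^ 4) (E0 b fun _ J u => sq2 (app (cm3 J u) fun _ => 1) ^ 2) := by
  refine soft_sq (fun m => Rec.Bd.sum fun i => Rec.Bd.sum fun j =>
    (Rec.Bd.sum fun k => (Rec.Bd.const 1).mul (Rec.bd_cm3 k i j)).pow 2)
    (fun m J u => sum_nonneg fun i _ => sum_nonneg fun j _ => sq_nonneg _) ?_ ?_
  · intro η Tm ε k hη hε
    obtain ⟨N, hN⟩ := hS η Tm ε k hη hε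
    exact ⟨N, fun n m τ a c d e f => (hN n m τ a c d e f).1⟩
  · obtain ⟨C, h⟩ := hC 3
    exact ⟨C, fun n m τ a c d => (h n m τ a c d).2.2.1⟩

include hC hG in
lemma small_gradV (hS : SoftSpec b) :
    Small (fun n => (n:ℝ) ^ 4) (E0 b fun _ J u => sq2 (gradV J u) ^ 2) := by
  refine soft_sq (fun m => Rec.Bd.sum fun i => Rec.Bd.sum fun j => (Rec.bd_gradV i j).pow 2)
    (fun m J u => sum_nonneg fun i _ => sum_nonneg fun j _ => sq_nonneg _) ?_
    (Rec.gradV_crude hG hC (by norm_num))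
  intro η Tm ε k hη hε
  obtain ⟨N, hN⟩ := hS η Tm ε k hη hε
  exact ⟨N, fun n m τ a c d e f => (hN n m τ a c d e f).2⟩

include hC in
lemma small_sq4 (hR : RecSpec b) :
    Small (fun n => (n:ℝ) ^ 4) (E0 b fun _ J u => sq4 (cm4 J u) ^ 2) := by
  refine soft_sq (fun m => Rec.Bd.sum fun i => Rec.Bd.sum fun j => Rec.Bd.sum fun k =>
    Rec.Bd.sum fun l => (Rec.bd_cm4 i j k l).pow 2)
    (fun m J u => sum_nonneg fun i _ => sum_nonneg fun j _ => sum_nonneg fun k _ =>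
      sum_nonneg fun l _ => sq_nonneg _) ?_ ?_
  · refine Small.of_bound (Y := fun n => (n:ℝ) * √n) (fun η Tm hη => ?_)
      (fun n => by positivity) fun n => le_of_eq ?_
    · obtain ⟨C, h⟩ := hR.2 η Tm hη
      exact ⟨C, fun n m τ a c d e => h n m τ a c d e⟩
    · show (n:ℝ) * √n * √n = _
      rw [mul_assoc, mul_self_sqrt (Nat.cast_nonneg n)]; ring
  · obtain ⟨C, h⟩ := hC 3
    exact ⟨C, fun n m τ a c d => (h n m τ a c d).1⟩

lemma pow5_le (n : ℕ) : ((n:ℝ) ^ 2 * √n) ^ 2 * √n ≤ (n:ℝ) ^ 6 := by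
  rw [mul_pow, sq_sqrt (Nat.cast_nonneg n)]
  refine (mul_le_mul_of_nonneg_left (Rec.sqrt_nat_le n) (by positivity)).trans_eq ?_
  ring

include hC in
/-- `E|del C 1|² = o(n)`. -/
theorem dC1_rs (hS : SoftSpec b) :
    RS (fun n => (n:ℝ))
      (E1 b fun m i J u => ∑ a, del i (fun G w => ∑ c, cm2 G w a c) J u ^ 2) := by
  refine del_rs (κ := fun m => Fin m) (φ := fun m a G w => ∑ c, cm2 G w a c)
    (D := fun m a k G w => ∑ c, cm3 G w a c k) (fun m a => Rec.Bd.sum fun c => Rec.bd_cm2 a c)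
    (fun m a k => Rec.Bd.sum fun c => Rec.bd_cm3 a c k) (fun m a G u c t => ?_) ?_ ?_
  · refine (HasDerivAt.fun_sum fun j _ => Rec.hasDerivAt_cm2_line G u c a j t).congr_deriv ?_
    rw [sum_comm]; simp only [mul_sum]
  · have e : ∀ (m : ℕ) (G : Mat m) (u : Vec m), (∑ a, ∑ k, (∑ c, cm3 G u a c k) ^ 2) =
        sq2 (app (cm3 G u) fun _ => 1) := fun m G u => by
      simp only [sq2, app, one_mul]
      refine sum_congr rfl fun a _ => sum_congr rfl fun k _ => ?_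
      congr 1
      exact sum_congr rfl fun c _ => cm3_swap12 ..
    simp only [e]
    exact small_T1 hC hS
  · refine Small.of_bound (Y := fun n => ((n:ℝ) ^ 2 * √n) ^ 2) (fun η Tm hη => ?_)
      (fun n => sq_nonneg _) pow5_le
    obtain ⟨C, h⟩ := hC 2
    refine ⟨C, fun n m τ a c d e => le_of_eq_of_le ?_ (h n m τ (by linarith) d e).2.2.2.2.1⟩
    simp only [E0, Rec.tot, sq1]
    congr 1; funext J u
    congr 1
    exact sum_congr rfl fun i _ => congrArg (· ^ 2) sum_comm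

include hC in
/-- `E‖del T‖² = o(n)`. -/
theorem delT_rs (hR : RecSpec b) :
    RS (fun n => (n:ℝ)) (E1 b fun m i J u =>
      ∑ a, ∑ c, ∑ e, del i (fun G w => cm3 G w a c e) J u ^ 2) := by
  have h := del_rs (b := b) (κ := fun m => Fin m × Fin m × Fin m)
    (φ := fun m q G w => cm3 G w q.1 q.2.1 q.2.2) (D := fun m q l G w => cm4 G w q.1 q.2.1 q.2.2 l)
    (fun m q => Rec.bd_cm3 _ _ _) (fun m q l => Rec.bd_cm4 _ _ _ _)
    (fun m q G u c t => Rec.hasDerivAt_cm3_line G u c _ _ _ t) ?_ ?_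
  · simpa only [Fintype.sum_prod_type] using h
  · simp only [Fintype.sum_prod_type]
    exact small_sq4 hC hR
  · refine Small.of_bound (Y := fun n => ((n:ℝ) ^ 2 * √n) ^ 2) (fun η Tm hη => ?_)
      (fun n => sq_nonneg _) pow5_le
    obtain ⟨C, h⟩ := hC 2
    refine ⟨C, fun n m τ a c d e => le_of_eq_of_le ?_ (h n m τ (by linarith) d e).2.2.2.2.2.2.1⟩
    simp only [E0, Rec.tot, sq3, sq2, Fintype.sum_prod_type]
    congr 1; funext J u
    congr 1
    refine sum_congr rfl fun p _ => sum_congr rfl fun q _ => sum_congr rfl fun r _ => ?_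
    congr 1
    exact sum_congr rfl fun l _ => by rw [Rec.cm4_swap34, Rec.cm4_swap23, Rec.cm4_swap12]

include hC hG in
/-- `E|del v|² = o(n)`. -/
theorem delV_rs (hS : SoftSpec b) :
    RS (fun n => (n:ℝ)) (E1 b fun m i J u => ∑ a, del i (fun G w => vv G w a) J u ^ 2) := by
  have h4 := small_gradV hC hG hS
  refine del_rs (κ := fun m => Fin m) (φ := fun m a G w => vv G w a)
    (D := fun m a k G w => gradV G w a k) (fun m a => Rec.bd_vv a) (fun m a k => Rec.bd_gradV a k)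
    (fun m a G u c t => Rec.hasDerivAt_vv_line G u c a t) h4 ?_
  intro η Tm ε k hη hε
  obtain ⟨N, hN⟩ := h4 η Tm ε k hη hε
  refine ⟨N, fun n m τ a c hn hm hk => ?_⟩
  have b2 : Rec.Bd fun (J : Mat m) (u : Vec m) => sq2 (gradV J u) ^ 2 :=
    (Rec.Bd.sum fun p => Rec.Bd.sum fun q => (Rec.bd_gradV p q).pow 2).pow 2
  refine (Rec.pEv_mono ((Rec.bd_tot fun p q => Rec.bd_gradV p q).pow 2)
    (b2.const_mul ((n:ℝ) ^ 2)) fun J u _ => ?_).trans ?_
  · rw [← mul_pow]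
    refine pow_le_pow_left₀ (sum_nonneg fun p _ => sq_nonneg _) ?_ 2
    rw [sq2, mul_sum]
    refine sum_le_sum fun p _ => (sq_sum_le_card_mul_sum_sq.trans ?_)
    rw [card_univ, Fintype.card_fin]
    exact mul_le_mul_of_nonneg_right (Nat.cast_le.2 hm) (sum_nonneg fun q _ => sq_nonneg _)
  · rw [Rec.pEv_const_mul]
    refine (mul_le_mul_of_nonneg_left (hN n m τ a c hn hm hk) (by positivity)).trans_eq ?_
    ring

end soft

/-- `v_rest - bar v` in the slice. -/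
lemma vv_rest_sub {m : ℕ} {J : Mat (m + 1)} (hJ : IsCoupling J) (u : Vec (m + 1))
    (i : Fin (m + 1)) (a : Fin m) :
    vv J u (i.succAbove a) - bar i vv J u a = mg J u i * del i vv J u a +
      (mg J u i ^ 2 - 1) * (∑ c, del i cm2 J u a c * del i mg J u c) +
      vw J u i * (del i mg J u a * del i (fun J u => sq1 (mg J u) / 2) J u) +
      vw J u i * mg J u i * (del i mg J u a * (1 + sq1 (del i mg J u))) := by
  have e1 : bar i vv J u a =
      ∑ c, (bar i cm2 J u a c * bar i mg J u c + del i cm2 J u a c * del i mg J u c) := by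
    simp only [bar, del, vv, Pi.smul_apply, Pi.add_apply, Pi.sub_apply, smul_eq_mul,
      ← sum_add_distrib, mul_sum]
    exact sum_congr rfl fun c _ => by ring
  have e2 : del i vv J u a =
      ∑ c, (del i cm2 J u a c * bar i mg J u c + bar i cm2 J u a c * del i mg J u c) := by
    simp only [bar, del, vv, Pi.smul_apply, Pi.add_apply, Pi.sub_apply, smul_eq_mul,
      ← sum_sub_distrib, mul_sum]
    exact sum_congr rfl fun c _ => by ring
  rw [vv, Fin.sum_univ_succAbove _ i, cm2_comm, cm2_self_rest hJ, del_half_sq, e1, e2, sq1,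
    mul_add (del i mg J u a) 1, mul_one, mul_add (vw J u i * mg J u i)]
  simp only [cm2_rest hJ, mg_rest hJ, mul_sum]
  rw [← sub_eq_zero]
  have hsum : ∑ c, ((bar i cm2 J u a c + mg J u i * del i cm2 J u a c +
        vw J u i * (del i mg J u a * del i mg J u c)) *
        (bar i mg J u c + mg J u i * del i mg J u c) -
      (bar i cm2 J u a c * bar i mg J u c + del i cm2 J u a c * del i mg J u c) -
      mg J u i * (del i cm2 J u a c * bar i mg J u c + bar i cm2 J u a c * del i mg J u c) -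
      (mg J u i ^ 2 - 1) * (del i cm2 J u a c * del i mg J u c) -
      vw J u i * (del i mg J u a * (bar i mg J u c * del i mg J u c)) -
      vw J u i * mg J u i * (del i mg J u a * del i mg J u c ^ 2)) = 0 :=
    sum_eq_zero fun c _ => by ring
  simp only [sum_sub_distrib] at hsum
  linarith

/-- `|v_rest - bar v|²`, split. -/
lemma vv_rest_sq_le {m : ℕ} {J : Mat (m + 1)} (hJ : IsCoupling J) (u : Vec (m + 1))
    (i : Fin (m + 1)) {t : ℝ} (ht : 0 < t) :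
    ∑ a, (vv J u (i.succAbove a) - bar i vv J u a) ^ 2 ≤
      4 * ∑ a, del i (fun G w => vv G w a) J u ^ 2 + 2 * t⁻¹ * (sq2 (del i cm2 J u) ^ 2 +
        del i (fun J u => sq1 (mg J u) / 2) J u ^ (2 * 2)) + 4 * t * sq1 (del i mg J u) ^ 2 +
      8 * sq1 (del i mg J u) + 8 * sq1 (del i mg J u) ^ 3 := by
  set d := del i mg J u with hd
  set S := del i (fun J u => sq1 (mg J u) / 2) J u
  have hw0 : 0 ≤ vw J u i := (vw_pos J u i).le
  have hw1 : vw J u i ≤ 1 := sub_le_self _ (sq_nonneg _)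
  have hm : |mg J u i| ≤ 1 := abs_mg_le J u i
  have hm2 : |mg J u i ^ 2 - 1| ≤ 1 := by
    rw [abs_le]; constructor <;> nlinarith [abs_le.1 hm]
  have h1 : ∀ a, (vv J u (i.succAbove a) - bar i vv J u a) ^ 2 ≤
      4 * (del i (fun G w => vv G w a) J u ^ 2 + (∑ c, del i cm2 J u a c ^ 2) * sq1 d +
        d a ^ 2 * S ^ 2 + d a ^ 2 * (1 + sq1 d) ^ 2) := by
    intro a
    rw [vv_rest_sub hJ u i a]
    have sc : ∀ {c x : ℝ}, |c| ≤ 1 → (c * x) ^ 2 ≤ x ^ 2 := fun {c x} hc => by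
      rw [mul_pow]; exact mul_le_of_le_one_left (sq_nonneg _) ((sq_le_one_iff_abs_le_one c).2 hc)
    have p1 : (mg J u i * del i vv J u a) ^ 2 ≤ del i (fun G w => vv G w a) J u ^ 2 :=
      (sc hm).trans_eq (by simp [del])
    have p2 := (sc (x := ∑ c, del i cm2 J u a c * d c) hm2).trans
      (sum_mul_sq_le_sq_mul_sq _ _ _)
    have p3 := sc (c := vw J u i) (x := d a * S) (by rwa [abs_of_nonneg hw0])
    have p4 := sc (c := vw J u i * mg J u i) (x := d a * (1 + sq1 d))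
      (by rw [abs_mul, abs_of_nonneg hw0]; exact mul_le_one₀ hw1 (abs_nonneg _) hm)
    rw [mul_pow (d a)] at p3 p4
    set A := mg J u i * del i vv J u a
    set B := (mg J u i ^ 2 - 1) * ∑ c, del i cm2 J u a c * d c
    set C := vw J u i * (d a * S)
    set D := vw J u i * mg J u i * (d a * (1 + sq1 d))
    have p2' : B ^ 2 ≤ (∑ c, del i cm2 J u a c ^ 2) * sq1 d := p2
    have key : (A + B + C + D) ^ 2 ≤ 4 * (A ^ 2 + B ^ 2 + C ^ 2 + D ^ 2) := by
      nlinarith [sq_nonneg (A - B), sq_nonneg (A - C), sq_nonneg (A - D), sq_nonneg (B - C),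
        sq_nonneg (B - D), sq_nonneg (C - D)]
    linarith
  refine (sum_le_sum fun a _ => h1 a).trans ?_
  simp only [← mul_sum, sum_add_distrib, ← sum_mul]
  have q0 : 0 ≤ sq1 d := sum_nonneg fun a _ => sq_nonneg _
  have q1 : sq2 (del i cm2 J u) * sq1 d ≤
      t⁻¹ / 2 * sq2 (del i cm2 J u) ^ 2 + t / 2 * sq1 d ^ 2 := by
    field_simp
    nlinarith [sq_nonneg (sq2 (del i cm2 J u) - t * sq1 d)]
  have q2 : sq1 d * S ^ 2 ≤ t⁻¹ / 2 * S ^ (2 * 2) + t / 2 * sq1 d ^ 2 := by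
    rw [pow_mul S 2 2]
    field_simp
    nlinarith [sq_nonneg (S ^ 2 - t * sq1 d)]
  have q3 : sq1 d * (1 + sq1 d) ^ 2 ≤ 2 * sq1 d + 2 * sq1 d ^ 3 := by
    nlinarith [mul_nonneg q0 (sq_nonneg (1 - sq1 d))]
  have eC : ∑ a, ∑ c, del i cm2 J u a c ^ 2 = sq2 (del i cm2 J u) := rfl
  have ed : ∑ a, d a ^ 2 = sq1 d := rfl
  rw [eC, ed]
  linarith

/-- `E|v_rest - bar v|² = o(n)`. -/
theorem vvRest_rs (hC : CrudeSpec b) (hG : GrowSpec b) (hO : CenterSpec b) (hSl : SliceSpec b)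
    (hS : SoftSpec b) :
    RS (fun n => (n:ℝ))
      (E1 b fun m i J u => ∑ a, (vv J u (i.succAbove a) - bar i vv J u a) ^ 2) := by
  obtain ⟨C2, hC2⟩ := Rec.delC_pow hG hC (p := 2) (by norm_num)
  obtain ⟨CS, hCS⟩ := Rec.delS_pow hG hC hO (p := 2) (by norm_num)
  set rest : (m : ℕ) → ℕ → Fin (m + 1) → Mat (m + 1) → Vec (m + 1) → ℝ := fun m n i J u =>
    2 * (√(n:ℝ))⁻¹ * (sq2 (del i cm2 J u) ^ 2 +
      del i (fun J u => sq1 (mg J u) / 2) J u ^ (2 * 2)) + 4 * √(n:ℝ) * sq1 (del i mg J u) ^ 2 +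
      8 * sq1 (del i mg J u) + 8 * sq1 (del i mg J u) ^ 3 with hrest
  have b0 : ∀ (m : ℕ) (i : Fin (m + 1)),
      Rec.Bd (fun J u => sq2 (del i cm2 J u) ^ 2) ∧
      Rec.Bd (fun J u => del i (fun J u => sq1 (mg J u) / 2) J u ^ (2 * 2)) ∧
      Rec.Bd (fun J u => sq1 (del i mg J u)) := fun m i => by
    refine ⟨?_, ?_, ?_⟩
    · have := (Rec.Bd.sum (s := univ) fun a => Rec.Bd.sum (s := univ) fun c =>
        ((Rec.bd_cm2 (m := m) a c).delI i).pow 2).pow 2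
      simpa [sq2, del] using this
    · refine Rec.Bd.pow (Rec.Bd.delI ?_ i) _
      simpa [sq1, div_eq_inv_mul] using
        (Rec.Bd.sum (s := univ) fun j => (Rec.bd_mg (m := m) j).pow 2).const_mul (2⁻¹)
    · have := Rec.Bd.sum (s := univ) fun a => ((Rec.bd_mg (m := m) a).delI i).pow 2
      simpa [sq1, del] using this
  have hrs : RS (fun n => (n:ℝ)) fun n m i τ => pEv b n (m + 1) τ (rest m n i) := by
    refine RS.of_bound (Y := fun n => √(n:ℝ)) (fun Tm => ?_) (fun n => sqrt_nonneg _)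
      fun n => le_of_eq (mul_self_sqrt (Nat.cast_nonneg n))
    obtain ⟨L1, h1⟩ := hSl 1 Tm
    obtain ⟨L2, h2⟩ := hSl 2 Tm
    obtain ⟨L3, h3⟩ := hSl 3 Tm
    refine ⟨2 * (|C2| + |CS|) + 4 * |L2| + 8 * |L1| + 8 * |L3|, fun n m i τ hτ hT hn hm => ?_⟩
    obtain ⟨c2, cS, d1⟩ := b0 m i
    simp only [hrest]
    rw [Rec.pEv_add (((((c2.add cS).const_mul _)).add ((d1.pow 2).const_mul _)).add
        (d1.const_mul _)) ((d1.pow 3).const_mul _),
      Rec.pEv_add (((c2.add cS).const_mul _).add ((d1.pow 2).const_mul _)) (d1.const_mul _),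
      Rec.pEv_add ((c2.add cS).const_mul _) ((d1.pow 2).const_mul _), Rec.pEv_const_mul,
      Rec.pEv_const_mul, Rec.pEv_const_mul, Rec.pEv_const_mul, Rec.pEv_add c2 cS]
    have a1 : pEv b n (m + 1) τ (fun J u => sq2 (del i cm2 J u) ^ 2) ≤ |C2| * n :=
      ((hC2 n m τ hτ hm i).trans_eq (by rw [sq_sqrt (Nat.cast_nonneg n)])).trans
        (mul_le_mul_of_nonneg_right (le_abs_self _) (Nat.cast_nonneg n))
    have a2 : pEv b n (m + 1) τ
        (fun J u => del i (fun J u => sq1 (mg J u) / 2) J u ^ (2 * 2)) ≤ |CS| * n :=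
      ((hCS n m τ hτ hm i).trans_eq (by rw [sq_sqrt (Nat.cast_nonneg n)])).trans
        (mul_le_mul_of_nonneg_right (le_abs_self _) (Nat.cast_nonneg n))
    have a3 := ((h2 n m τ hτ hT hm i).1).trans (le_abs_self L2)
    have a4 : pEv b n (m + 1) τ (fun J u => sq1 (del i mg J u)) ≤ |L1| := by
      simpa using ((h1 n m τ hτ hT hm i).1).trans (le_abs_self L1)
    have a5 := ((h3 n m τ hτ hT hm i).1).trans (le_abs_self L3)
    have hs : 0 < √(n:ℝ) := sqrt_pos.2 (Nat.cast_pos.2 hn)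
    have hs1 : 1 ≤ √(n:ℝ) := one_le_sqrt.2 (Nat.one_le_cast.2 hn)
    have e : (√(n:ℝ))⁻¹ * n = √(n:ℝ) := by
      field_simp
      rw [sq_sqrt (Nat.cast_nonneg n)]
    have f1 : 2 * (√(n:ℝ))⁻¹ * (pEv b n (m + 1) τ (fun J u => sq2 (del i cm2 J u) ^ 2) +
        pEv b n (m + 1) τ (fun J u => del i (fun J u => sq1 (mg J u) / 2) J u ^ (2 * 2))) ≤
        2 * (|C2| + |CS|) * √(n:ℝ) := by
      refine (mul_le_mul_of_nonneg_left (add_le_add a1 a2) (by positivity)).trans_eq ?_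
      linear_combination (2 * (|C2| + |CS|)) * e
    nlinarith [mul_le_mul_of_nonneg_left a3 hs.le, mul_nonneg (abs_nonneg L1) (sub_nonneg.2 hs1),
      mul_nonneg (abs_nonneg L3) (sub_nonneg.2 hs1)]
  refine (((delV_rs hC hG hS).const_mul (c := 4) (by norm_num) fun n => Nat.cast_nonneg n).add
    hrs).mono fun n m i τ hτ hn hm => ?_
  obtain ⟨c2, cS, d1⟩ := b0 m i
  have bv : Rec.Bd fun J u => ∑ a, del i (fun G w => vv G w a) J u ^ 2 :=
    Rec.Bd.sum fun a => ((Rec.bd_vv (m := m) a).delI i).pow 2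
  have br : Rec.Bd (rest m n i) := ((((c2.add cS).const_mul _).add ((d1.pow 2).const_mul _)).add
    (d1.const_mul _)).add ((d1.pow 3).const_mul _)
  have bl : Rec.Bd fun J u => ∑ a, (vv J u (i.succAbove a) - bar i vv J u a) ^ 2 := by
    refine Rec.Bd.sum fun a => ((Rec.bd_vv (i.succAbove a)).sub ?_).pow 2
    simpa [bar] using (Rec.bd_vv (m := m) a).barI i
  show pEv b n (m + 1) τ _ ≤ 4 * pEv b n (m + 1) τ _ + pEv b n (m + 1) τ _
  rw [← Rec.pEv_const_mul, ← Rec.pEv_add (bv.const_mul 4) br]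
  refine Rec.pEv_mono bl ((bv.const_mul 4).add br) fun J u hJ => ?_
  refine (vv_rest_sq_le hJ u i (sqrt_pos.2 (Nat.cast_pos.2 hn))).trans_eq ?_
  simp only [hrest]; ring

end Vale.Agent.P150.Weak.RespSoft
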