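import Vale.Agent.P150.Weak.Upd
import Vale.Agent.P150.Weak.RespSoft.Rows
import Vale.Agent.P150.Weak.RespSoft.Five
import Vale.Agent.P150.Weak.RespSoft.Terms

/-!
The row `r = d - bar C J`. Its row mean is a third order Taylor remainder and a half difference of
`v`; its gradient in the row is a divergence and soft terms.
-/

open MeasureTheory ProbabilityTheory Finset Real

namespace Vale.Agent.P150.Weak.RespSoft

open Gap

variable {m : ℕ} {b : ℝ}

/-- `r = d - bar C x`. -/
noncomputable def rO (a : Fin m) : Obs m := fun G h x =>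
  delX (fun G h => mg G h a) G h x - ∑ c, barX (fun G h => cm2 G h a c) G h x * x c

/-- `∂_k r = - del T x`. -/
noncomputable def drO (a k : Fin m) : Obs m := fun G h x =>
  -∑ c, delX (fun G h => cm3 G h a c k) G h x * x c

/-- The third order part of the row mean of `r`. -/
noncomputable def firstO (v : ℝ) (a : Fin m) : Obs m := fun G h x =>
  delX (fun G h => mg G h a) G h x - v * ∑ c, barX (fun G h => cm2 G h a c) G h x

lemma row3_rO (a : Fin m) : Row3 (rO a) :=
  (Row3.delX (Rec.bd_mg a)).sub (Row3.sum fun c =>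
    (Row3.barX (Rec.bd_cm2 a c)).mul (Row3.coord c))

lemma row3_drO (a k : Fin m) : Row3 (drO a k) := by
  have h := (Row3.sum (s := univ) fun c =>
    (Row3.delX (Rec.bd_cm3 a c k)).mul (Row3.coord c)).const_mul (-1)
  unfold drO
  simpa using h

lemma row3_firstO (v : ℝ) (a : Fin m) : Row3 (firstO v a) :=
  (Row3.delX (Rec.bd_mg a)).sub ((Row3.sum fun c => Row3.barX (Rec.bd_cm2 a c)).const_mul v)

lemma der_rO (a : Fin m) : Der (rO a) (drO a) := by
  refine ((Der.delX (lineDer1_mg a)).sub (Der.sum (s := univ) fun c =>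
    (Der.barX (lineDer1_cm2 a c)).mul (Der.coord c))).congr fun k G h x => ?_
  simp [drO, sum_add_distrib]

lemma sum_cm3_diag' (G : Mat m) (h : Vec m) (a : Fin m) :
    ∑ c, cm3 G h a c c = -2 * vv G h a := by
  rw [← sum_cm3_diag G h a]
  exact sum_congr rfl fun c _ => by rw [cm3_swap12, cm3_swap23]

lemma sum_cm4_diag' (G : Mat m) (h : Vec m) (a k : Fin m) :
    ∑ c, cm4 G h a c k c = -2 * gradV G h a k := by
  rw [← sum_cm4_diag G h a k]
  exact sum_congr rfl fun c _ => by rw [Rec.cm4_swap34, Rec.cm4_swap12, Rec.cm4_swap23]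

/-- The row mean of `r`. -/
lemma rowMean_rO {v : ℝ} (hv : 0 ≤ v) (a : Fin m) (G : Mat m) (h : Vec m) :
    rowMean v (rO a) G h =
      rowMean v (firstO v a) G h + 2 * v * rowMean v (delX fun G h => vv G h a) G h := by
  have tC := fun c => (Row3.barX (Rec.bd_cm2 a c)).tame_slice v G h
  have tT := fun c => (Row3.delX (Rec.bd_cm3 a c c)).tame_slice v G h
  have tV := ((Row3.delX (Rec.bd_vv a)).tame_slice v G h).integrable
  have hA := ((Row3.delX (Rec.bd_mg a)).tame_slice v G h).integrable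
  have hib : ∀ c, ∫ r : Fin m → ℝ, barX (fun G h => cm2 G h a c) G h (Rec.rv v r) * Rec.rv v r c
      ∂gauss (Fin m) =
      v * (∫ r : Fin m → ℝ, barX (fun G h => cm2 G h a c) G h (Rec.rv v r) ∂gauss (Fin m)) +
      v * ∫ r : Fin m → ℝ, delX (fun G h => cm3 G h a c c) G h (Rec.rv v r) ∂gauss (Fin m) := by
    intro c
    have hd : ∀ (r : Fin m → ℝ) (t : ℝ), HasDerivAt
        (fun s => barX (fun G h => cm2 G h a c) G h (Rec.rv v (Function.update r c s)))
        (√v * delX (fun G h => cm3 G h a c c) G h (Rec.rv v (Function.update r c t))) t := by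
      intro r t
      have e : ∀ s, Rec.rv v (Function.update r c s) =
          Function.update (Rec.rv v r) c (v + √v * s) := fun s => by
        funext j
        rcases eq_or_ne j c with rfl | hj
        · simp [Rec.rv]
        · simp [Rec.rv, hj]
      simp only [e]
      have hlin : HasDerivAt (fun s => v + √v * s) (√v) t := by
        simpa using ((hasDerivAt_id t).const_mul (√v)).const_add v
      exact ((Der.barX (lineDer1_cm2 a c) G h (Rec.rv v r) c _).comp t hlin).congr_deriv
        (mul_comm _ _)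
    have h2 := Weak.ibp (tC c) ((Tame.const (√v)).mul (tT c))
      (fun r t => by simpa only [update_eq_upd] using hd r t)
    have e : ∀ r : Fin m → ℝ, barX (fun G h => cm2 G h a c) G h (Rec.rv v r) * Rec.rv v r c =
        v * barX (fun G h => cm2 G h a c) G h (Rec.rv v r) +
        √v * (r c * barX (fun G h => cm2 G h a c) G h (Rec.rv v r)) := fun r => by
      simp only [Rec.rv]; ring
    simp only [e]
    rw [integral_add ((tC c).integrable.const_mul v)
      ((((Tame.coord c).mul (tC c)).integrable).const_mul _), integral_const_mul,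
      integral_const_mul, h2, integral_const_mul, ← mul_assoc, mul_self_sqrt hv]
  have hT : ∑ c, ∫ r : Fin m → ℝ, delX (fun G h => cm3 G h a c c) G h (Rec.rv v r)
      ∂gauss (Fin m) = -2 * rowMean v (delX fun G h => vv G h a) G h := by
    rw [rowMean, ← integral_finsetSum _ fun c _ => (tT c).integrable, ← integral_const_mul]
    refine integral_congr_ae (ae_of_all _ fun r => ?_)
    simp only [delX, ← sum_div, sum_sub_distrib, sum_cm3_diag']
    ring
  have iC : ∀ c, Integrable (fun r : Fin m → ℝ =>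
      barX (fun G h => cm2 G h a c) G h (Rec.rv v r) * Rec.rv v r c) (gauss (Fin m)) := fun c =>
    (((Row3.barX (Rec.bd_cm2 a c)).mul (Row3.coord c)).tame_slice v G h).integrable
  simp only [rowMean, rO, firstO] at hT ⊢
  rw [integral_sub hA (integrable_finsetSum _ fun c _ => iC c), integral_finsetSum _ fun c _ => iC c,
    integral_sub hA ((integrable_finsetSum _ fun c _ => (tC c).integrable).const_mul v),
    integral_const_mul, integral_finsetSum _ fun c _ => (tC c).integrable]
  simp only [hib, sum_add_distrib, ← mul_sum, hT]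
  ring

/-- `Σ_ce T_ace`. -/
noncomputable def sum3 (a : Fin m) (G : Mat m) (w : Vec m) : ℝ := ∑ c, ∑ e, cm3 G w a c e

/-- `Σ_c C_ac`. -/
noncomputable def sum2 (a : Fin m) (G : Mat m) (w : Vec m) : ℝ := ∑ c, cm2 G w a c

lemma bd_sum3 (a : Fin m) : Rec.Bd (sum3 (m := m) a) :=
  Rec.Bd.sum fun c => Rec.Bd.sum fun e => Rec.bd_cm3 a c e

lemma bd_sum2 (a : Fin m) : Rec.Bd (sum2 (m := m) a) := Rec.Bd.sum fun c => Rec.bd_cm2 a c

/-- The fields `h + s v + √v r`. -/
noncomputable def fld (v : ℝ) (h : Vec m) (q : (Fin m → ℝ) × ℝ) : Vec m :=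
  h + fun k => q.2 * v + √v * q.1 k

@[fun_prop]
lemma continuous_fld (v : ℝ) (h : Vec m) : Continuous (fld v h) := by unfold fld; fun_prop

/-- `m_a - s v Σ_c C_ac` at the fields `h + s v + √v r`. -/
noncomputable def taylor (v : ℝ) (G : Mat m) (h : Vec m) (a : Fin m) (q : (Fin m → ℝ) × ℝ) : ℝ :=
  mg G (fld v h q) a - q.2 * v * sum2 a G (fld v h q)

lemma continuous_at_fld {φ : Mat m → Vec m → ℝ} (hφ : Rec.Bd φ) (v : ℝ) (G : Mat m) (h : Vec m) :
    Continuous fun q => φ G (fld v h q) :=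
  hφ.1.comp (f := fun q : (Fin m → ℝ) × ℝ => (G, fld v h q)) (by fun_prop)

/-- The fundamental theorem of calculus along the segment. -/
lemma taylor_sub (v : ℝ) (G : Mat m) (h : Vec m) (a : Fin m) (r : Fin m → ℝ) :
    taylor v G h a (r, 1) - taylor v G h a (r, -1) =
      -(v ^ 2) * ∫ s, s * sum3 a G (fld v h (r, s)) ∂(Rec.seg) := by
  set w : Vec m := h + fun k => √v * r k
  have e : ∀ s : ℝ, fld v h (r, s) = w + s • fun _ => v := fun s => by
    funext k; simp only [fld, w, Pi.add_apply, Pi.smul_apply, smul_eq_mul]; ring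
  have hd : ∀ s : ℝ, HasDerivAt (fun s : ℝ => taylor v G h a (r, s))
      (-(v ^ 2) * (s * sum3 a G (fld v h (r, s)))) s := by
    intro s
    simp only [taylor, e]
    have d2 : HasDerivAt (fun s : ℝ => sum2 a G (w + s • fun _ => v))
        (v * sum3 a G (w + s • fun _ => v)) s := by
      refine (HasDerivAt.fun_sum fun c _ =>
        Rec.hasDerivAt_cm2_line G w (fun _ => v) a c s).congr_deriv ?_
      simp only [sum3, mul_sum]
    refine ((Rec.hasDerivAt_mg_line G w (fun _ => v) a s).sub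
      (((hasDerivAt_id s).mul_const v).mul d2)).congr_deriv ?_
    simp only [id_eq, sum2, ← mul_sum]
    ring
  have hc : Continuous fun s : ℝ => -(v ^ 2) * (s * sum3 a G (fld v h (r, s))) :=
    continuous_const.mul (continuous_id.mul
      ((continuous_at_fld (bd_sum3 a) v G h).comp (Continuous.prodMk_right r)))
  rw [← intervalIntegral.integral_eq_sub_of_hasDerivAt (fun s _ => hd s)
    (hc.intervalIntegrable _ _), intervalIntegral.integral_of_le (by norm_num), ← integral_const_mul]
  rfl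

lemma integrable_taylor (v : ℝ) (G : Mat m) (h : Vec m) (a : Fin m) (s : ℝ) :
    Integrable (fun r => taylor v G h a (r, s)) (gauss (Fin m)) := by
  obtain ⟨B, hB⟩ := (bd_sum2 (m := m) a).2
  refine integrable_gauss_bound (B := 1 + |s * v| * B) ?_ fun r => ?_
  · have hf : Continuous fun r : Fin m → ℝ => (r, s) := Continuous.prodMk_left s
    exact ((continuous_at_fld (Rec.bd_mg a) v G h).comp hf).sub
      ((continuous_const (y := s * v)).mul ((continuous_at_fld (bd_sum2 a) v G h).comp hf))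
  · refine (abs_sub _ _).trans (add_le_add (abs_mg_le _ _ a) ?_)
    rw [abs_mul]
    exact mul_le_mul_of_nonneg_left (hB _ _) (abs_nonneg _)

/-- The row mean of the first part is the remainder. -/
lemma rowMean_firstO (v : ℝ) (G : Mat m) (h : Vec m) (a : Fin m) :
    rowMean v (firstO v a) G h =
      -(v ^ 2) / 2 * ∫ r, ∫ s, s * sum3 a G (fld v h (r, s)) ∂(Rec.seg) ∂gauss (Fin m) := by
  have e1 : ∀ r : Fin m → ℝ, firstO v a G h (Rec.rv v r) =
      (taylor v G h a (r, 1) - taylor v G h a (-r, -1)) / 2 := fun r => by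
    have hp : h + Rec.rv v r = fld v h (r, 1) := by funext k; simp [fld, Rec.rv]
    have hm : h - Rec.rv v r = fld v h (-r, -1) := by
      funext k; simp [fld, Rec.rv, sub_eq_add_neg, add_comm]
    simp only [firstO, delX, barX, taylor, sum2, hp, hm, ← sum_div, sum_add_distrib]
    ring
  have iM : Integrable (fun r => taylor v G h a (-r, -1)) (gauss (Fin m)) :=
    (Rec.gauss_neg_fin (m := m)).integrable_comp_of_integrable (integrable_taylor v G h a (-1))
  have hneg : ∫ r, taylor v G h a (-r, -1) ∂gauss (Fin m) =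
      ∫ r, taylor v G h a (r, -1) ∂gauss (Fin m) :=
    integral_comp_mp (Rec.gauss_neg_fin (m := m)) (F := fun r => taylor v G h a (r, -1))
      (integrable_taylor v G h a (-1)).aestronglyMeasurable
  simp only [rowMean, e1]
  rw [integral_div, integral_sub (integrable_taylor v G h a 1) iM, hneg,
    ← integral_sub (integrable_taylor v G h a 1) (integrable_taylor v G h a (-1))]
  simp only [taylor_sub, integral_const_mul]
  ring

/-- Cauchy–Schwarz on the segment. -/
lemma seg_sq_le {φ : Mat m → Vec m → ℝ} (hφ : Rec.Bd φ) (v : ℝ) (G : Mat m) (h : Vec m) :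
    (∫ r, ∫ s, s * φ G (fld v h (r, s)) ∂(Rec.seg) ∂gauss (Fin m)) ^ 2 ≤
      2 * ∫ r, ∫ s, φ G (fld v h (r, s)) ^ 2 ∂(Rec.seg) ∂gauss (Fin m) := by
  set P := (gauss (Fin m)).prod Rec.seg with hP
  obtain ⟨B, hB⟩ := hφ.2
  have hc := continuous_at_fld hφ v G h
  have hmem : ∀ᵐ q : (Fin m → ℝ) × ℝ ∂P, q.2 ^ 2 ≤ 1 := by
    have h1 : ∀ᵐ s : ℝ ∂(Rec.seg), s ^ 2 ≤ 1 := by
      rw [Rec.seg]
      filter_upwards [ae_restrict_mem measurableSet_Ioc] with s hs
      exact (sq_le_one_iff_abs_le_one s).2 (abs_le.2 ⟨hs.1.le, hs.2⟩)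
    exact Measure.quasiMeasurePreserving_snd.ae h1
  have hI : Integrable (fun q => φ G (fld v h q) ^ 2) P :=
    Integrable.of_bound (hc.pow 2).aestronglyMeasurable (B ^ 2) (ae_of_all _ fun q => by
      rw [norm_eq_abs, abs_pow]; exact pow_le_pow_left₀ (abs_nonneg _) (hB _ _) 2)
  have hI2 : Integrable (fun q : (Fin m → ℝ) × ℝ => (q.2 * φ G (fld v h q)) ^ 2) P := by
    refine hI.mono' ((continuous_snd.mul hc).pow 2).aestronglyMeasurable ?_
    filter_upwards [hmem] with q hq
    rw [norm_eq_abs, abs_of_nonneg (sq_nonneg _), mul_pow]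
    exact mul_le_of_le_one_left (sq_nonneg _) hq
  have hI1 : Integrable (fun q : (Fin m → ℝ) × ℝ => q.2 * φ G (fld v h q)) P := by
    refine Integrable.of_bound (continuous_snd.mul hc).aestronglyMeasurable |B| ?_
    filter_upwards [hmem] with q hq
    rw [norm_eq_abs, abs_mul]
    exact (mul_le_of_le_one_left (abs_nonneg _) ((sq_le_one_iff_abs_le_one _).1 hq)).trans
      ((hB _ _).trans (le_abs_self B))
  have hvol : P.real Set.univ = 2 := by
    rw [measureReal_def, hP, ← Set.univ_prod_univ, Measure.prod_prod]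
    simp [Rec.seg]
    norm_num
  rw [← integral_prod _ hI1, ← integral_prod _ hI]
  refine (Rec.sq_integral_le hI1 hI2).trans ?_
  rw [hvol]
  refine mul_le_mul_of_nonneg_left (integral_mono_ae hI2 hI ?_) two_pos.le
  filter_upwards [hmem] with q hq
  rw [mul_pow]
  exact mul_le_of_le_one_left (sq_nonneg _) hq

/-- **The third order remainder.** -/
lemma first_le (v : ℝ) (G : Mat m) (h : Vec m) :
    ∑ a, rowMean v (firstO v a) G h ^ 2 ≤
      v ^ 4 / 2 * segAvg v (fun G w => sq1 fun a => sum3 a G w) G h := by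
  refine (sum_le_sum fun a _ => ?_).trans_eq (b := ∑ a, v ^ 4 / 2 *
    ∫ r, ∫ s, sum3 a G (fld v h (r, s)) ^ 2 ∂(Rec.seg) ∂gauss (Fin m)) ?_
  · rw [rowMean_firstO, mul_pow]
    refine (mul_le_mul_of_nonneg_left (seg_sq_le (bd_sum3 a) v G h) (sq_nonneg _)).trans_eq ?_
    ring
  rw [← mul_sum]
  congr 1
  have hi : ∀ a, Integrable (fun q => sum3 a G (fld v h q) ^ 2) ((gauss (Fin m)).prod Rec.seg) :=
    fun a => by
      obtain ⟨B, hB⟩ := (bd_sum3 (m := m) a).2
      exact Integrable.of_bound ((continuous_at_fld (bd_sum3 a) v G h).pow 2).aestronglyMeasurable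
        (B ^ 2) (ae_of_all _ fun q => by
          rw [norm_eq_abs, abs_pow]; exact pow_le_pow_left₀ (abs_nonneg _) (hB _ _) 2)
  simp only [← fun a => integral_prod _ (hi a)]
  rw [← integral_finsetSum _ fun a _ => hi a]
  exact integral_prod _ (integrable_finsetSum _ fun a _ => hi a)

/-- `∂r`, split into a divergence and soft terms. -/
lemma drO_split (v : ℝ) (a k : Fin m) (G : Mat m) (h x : Vec m) :
    drO a k G h x =
      -(deltaX v (fun c => delX fun G h => cm3 G h a c k)
          (fun c d => barX fun G h => cm4 G h a c k d) G h x +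
        v * delX (fun G h => ∑ c, cm3 G h a c k) G h x +
        v * (-2 * barX (fun G h => gradV G h a k) G h x)) := by
  have e1 : delX (fun G h => ∑ c, cm3 G h a c k) G h x =
      ∑ c, delX (fun G h => cm3 G h a c k) G h x := by
    simp only [delX, ← sum_div, sum_sub_distrib]
  have e2 : -2 * barX (fun G h => gradV G h a k) G h x =
      ∑ c, barX (fun G h => cm4 G h a c k c) G h x := by
    simp only [barX, ← sum_div, sum_add_distrib, sum_cm4_diag']; ring
  rw [e1, e2, drO, deltaX]
  simp only [mul_sum, ← sum_add_distrib]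
  congr 1
  exact sum_congr rfl fun c _ => by ring

/-- **`E‖∂r‖² = o(1)`.** -/
theorem drO_rs (hC : CrudeSpec b) (hG : GrowSpec b) (hR : RecSpec b) (hS : SoftSpec b) :
    RS (fun _ => (1:ℝ)) fun n m i τ => pEv b n (m + 1) τ fun J u =>
      ∑ a, ∑ k, at3 i (drO a k) J u ^ 2 := by
  have hTd := delT_rs hC hR
  have h4 := bar_rs (b := b) (κ := fun m => (Fin m × Fin m) × Fin m × Fin m)
    (φ := fun m q G w => cm4 G w q.1.1 q.1.2 q.2.1 q.2.2) (fun m q => Rec.bd_cm4 _ _ _ _)
    (by simp only [Fintype.sum_prod_type]; exact small_sq4 hC hR)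
  have h1 := del_crude_rs (b := b) (κ := fun m => Fin m × Fin m)
    (φ := fun m q G w => ∑ c, cm3 G w q.1 c q.2) (fun m q => Rec.Bd.sum fun c => Rec.bd_cm3 _ c _)
    (by
      have e : ∀ (m : ℕ) (G : Mat m) (u : Vec m), (∑ q : Fin m × Fin m,
          (∑ c, cm3 G u q.1 c q.2) ^ 2) = sq2 (app (cm3 G u) fun _ => 1) := fun m G u => by
        simp only [sq2, app, one_mul, Fintype.sum_prod_type]
        refine sum_congr rfl fun a _ => sum_congr rfl fun k _ => ?_
        congr 1
        exact sum_congr rfl fun c _ => cm3_swap12 ..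
      simp only [e]
      exact small_T1 hC hS)
  have hg := bar_rs (b := b) (κ := fun m => Fin m × Fin m)
    (φ := fun m q G w => gradV G w q.1 q.2) (fun m q => Rec.bd_gradV _ _)
    (by simp only [Fintype.sum_prod_type]; exact small_gradV hC hG hS)
  refine (((hTd.scale (Z := fun _ => (1:ℝ)) (fun n => 3 * (b ^ 2 / n)) (3 * b ^ 2)
      (fun n _ => by positivity) (fun _ => zero_le_one) fun n hn => ?_).add
    ((h4.add h1).scale (Z := fun _ => (1:ℝ)) (fun n => 3 * (b ^ 2 / n) ^ 2) (3 * b ^ 4)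
      (fun n _ => by positivity) (fun _ => zero_le_one) fun n hn => ?_)).add
    (hg.scale (Z := fun _ => (1:ℝ)) (fun n => 12 * (b ^ 2 / n) ^ 2) (12 * b ^ 4)
      (fun n _ => by positivity) (fun _ => zero_le_one) fun n hn => ?_)).mono
    fun n m i τ hτ hn hm => ?_
  · have : (n:ℝ) ≠ 0 := by positivity
    exact le_of_eq (by field_simp)
  · have : (n:ℝ) ≠ 0 := by positivity
    exact le_of_eq (by field_simp)
  · have : (n:ℝ) ≠ 0 := by positivity
    exact le_of_eq (by field_simp)
  set v := b ^ 2 / (n:ℝ) with hv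
  have hv0 : 0 ≤ v := by positivity
  have hd := row_delta (b := b) (n := n) (τ := τ) i
    (X := fun (ak : Fin m × Fin m) c => delX fun G h => cm3 G h ak.1 c ak.2)
    (D := fun ak c d => barX fun G h => cm4 G h ak.1 c ak.2 d)
    (D2 := fun ak c d e => delX fun G h => cm5 G h ak.1 c ak.2 d e)
    (fun ak c => Row3.delX (Rec.bd_cm3 _ _ _)) (fun ak c d => Row3.barX (Rec.bd_cm4 _ _ _ _))
    (fun ak c d e => Row3.delX (Rec.Bd.of_le (continuous_cm5 _ _ _ _ _)
      fun J u => abs_cm5_le J u _ _ _ _ _))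
    (fun ak c => Der.delX (lineDer1_cm3 _ _ _))
    (fun ak c d => Der.barX fun G u w t => hasDerivAt_cm4_line G u w _ _ _ _ t)
    (fun ak c d e G h x => by simp only [cm5_swap45 _ _ ak.1 c ak.2 d e])
  rw [← hv] at hd
  set P := fun (a k : Fin m) => deltaX v (fun c => delX fun G h => cm3 G h a c k)
    (fun c d => barX fun G h => cm4 G h a c k d) with hP
  set Q := fun (a k : Fin m) => (delX fun G h => ∑ c, cm3 G h a c k : Obs m) with hQ
  set W := fun (a k : Fin m) => (barX fun G h => gradV G h a k : Obs m) with hW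
  have rP : ∀ a k, Row3 (P a k) := fun a k => Row3.sum fun c =>
    (((Row3.coord c).sub (Row3.const v)).mul (Row3.delX (Rec.bd_cm3 a c k))).sub
      ((Row3.barX (Rec.bd_cm4 a c k c)).const_mul v)
  have rQ : ∀ a k, Row3 (Q a k) := fun a k => Row3.delX (Rec.Bd.sum fun c => Rec.bd_cm3 a c k)
  have rW : ∀ a k, Row3 (W a k) := fun a k => Row3.barX (Rec.bd_gradV a k)
  have s2 : ∀ {F : Fin m → Fin m → Obs m}, (∀ a k, Row3 (F a k)) →
      Row3 (fun G h x => ∑ a, ∑ k, F a k G h x ^ 2) :=
    fun hF => Row3.sum fun a => Row3.sum fun k => (hF a k).sq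
  have iP := ((s2 rP).tame_sample v τ i).integrable
  have iQ := ((s2 rQ).tame_sample v τ i).integrable
  have iW := ((s2 rW).tame_sample v τ i).integrable
  have hle : ∀ J u, ∑ a, ∑ k, at3 i (drO a k) J u ^ 2 ≤
      3 * at3 i (fun G h x => ∑ a, ∑ k, P a k G h x ^ 2) J u +
      3 * v ^ 2 * at3 i (fun G h x => ∑ a, ∑ k, Q a k G h x ^ 2) J u +
      12 * v ^ 2 * at3 i (fun G h x => ∑ a, ∑ k, W a k G h x ^ 2) J u := by
    intro J u
    simp only [at3, mul_sum, ← sum_add_distrib, hP, hQ, hW]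
    refine sum_le_sum fun a _ => sum_le_sum fun k _ => ?_
    rw [drO_split v a k]
    have key : ∀ x y z : ℝ, (-(x + y + z)) ^ 2 ≤ 3 * x ^ 2 + 3 * y ^ 2 + 3 * z ^ 2 := fun x y z => by
      nlinarith [sq_nonneg (x - y), sq_nonneg (x - z), sq_nonneg (y - z)]
    refine (key _ _ _).trans_eq ?_
    ring
  have h0 : pEv b n (m + 1) τ (fun J u => ∑ a, ∑ k, at3 i (drO a k) J u ^ 2) ≤
      3 * pEv b n (m + 1) τ (fun J u => ∑ a, ∑ k, at3 i (P a k) J u ^ 2) +
      3 * v ^ 2 * pEv b n (m + 1) τ (fun J u => ∑ a, ∑ k, at3 i (Q a k) J u ^ 2) +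
      12 * v ^ 2 * pEv b n (m + 1) τ (fun J u => ∑ a, ∑ k, at3 i (W a k) J u ^ 2) := by
    refine (integral_mono_of_nonneg (ae_of_all _ fun g =>
      sum_nonneg fun a _ => sum_nonneg fun k _ => sq_nonneg _)
      (((iP.const_mul 3).add (iQ.const_mul (3 * v ^ 2))).add (iW.const_mul (12 * v ^ 2)))
      (ae_of_all _ fun g => hle _ _)).trans_eq ?_
    have i12 := (iP.const_mul 3).add (iQ.const_mul (3 * v ^ 2))
    rw [integral_add' i12 (iW.const_mul _), integral_add' (iP.const_mul _) (iQ.const_mul _),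
      integral_const_mul, integral_const_mul, integral_const_mul]
    rfl
  simp only [Fintype.sum_prod_type, at3_delX, at3_barX] at hd
  simp only [hQ, hW, at3_delX, at3_barX] at h0
  simp only [E1, Fintype.sum_prod_type, ← hv]
  have e3 : ∀ (J : Mat (m + 1)) (u : Vec (m + 1)),
      ∑ a, ∑ k, ∑ c, del i (fun G h => cm3 G h a c k) J u ^ 2 =
        ∑ a, ∑ c, ∑ e, del i (fun G w => cm3 G w a c e) J u ^ 2 := fun J u =>
    sum_congr rfl fun a _ => sum_comm
  have e4 : ∀ (J : Mat (m + 1)) (u : Vec (m + 1)),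
      ∑ a, ∑ k, ∑ c, ∑ d, bar i (fun G h => cm4 G h a c k d) J u ^ 2 =
        ∑ a, ∑ c, ∑ k, ∑ d, bar i (fun G w => cm4 G w a c k d) J u ^ 2 := fun J u =>
    sum_congr rfl fun a _ => sum_comm
  simp only [e3, e4] at hd
  nlinarith [hd, h0]

/-- **The row `r` is `o(1/n)`.** -/
theorem rO_rs (hC : CrudeSpec b) (hG : GrowSpec b) (hR : RecSpec b) (hS : SoftSpec b) :
    RS (fun n => (n:ℝ)⁻¹) fun n m i τ => pEv b n (m + 1) τ fun J u =>
      ∑ a, at3 i (rO a) J u ^ 2 := by
  have hM : Small (fun n => (n:ℝ) ^ 6)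
      (E0 b fun m G u => (sq1 fun a => ∑ c, ∑ e, cm3 G u a c e) ^ 2) := by
    refine Small.of_bound (Y := fun n => ((n:ℝ) ^ 2 * √n) ^ 2) (fun η Tm hη => ?_)
      (fun n => sq_nonneg _) pow5_le
    obtain ⟨C, h⟩ := hC 2
    exact ⟨C, fun n m τ a c d e => (h n m τ (by linarith) d e).2.2.2.2.1⟩
  have hM' := (hM.shift (b := b)).rsqrt (X := fun n => (n:ℝ) ^ 3) (fun n => by positivity)
    fun n => le_of_eq (by ring)
  refine (((hM'.scale (Z := fun n => (n:ℝ)⁻¹) (fun n => 2 * (b ^ 2 / n) ^ 4 * exp (2 * b ^ 2))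
      (2 * b ^ 8 * exp (2 * b ^ 2)) (fun n _ => by positivity) (fun n => by positivity)
      fun n hn => ?_).add
    ((delV_rs hC hG hS).scale (Z := fun n => (n:ℝ)⁻¹) (fun n => 8 * (b ^ 2 / n) ^ 2) (8 * b ^ 4)
      (fun n _ => by positivity) (fun n => by positivity) fun n hn => ?_)).add
    ((drO_rs hC hG hR hS).scale (Z := fun n => (n:ℝ)⁻¹) (fun n => b ^ 2 / n) (b ^ 2)
      (fun n _ => by positivity) (fun n => by positivity) fun n hn => ?_)).mono
    fun n m i τ hτ hn hm => ?_
  · have : (n:ℝ) ≠ 0 := by positivity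
    exact le_of_eq (by field_simp)
  · have : (n:ℝ) ≠ 0 := by positivity
    exact le_of_eq (by field_simp)
  · exact le_of_eq (by rw [mul_one]; ring)
  set v := b ^ 2 / (n:ℝ) with hv
  have hv0 : 0 ≤ v := by positivity
  have hP := row_poincare (b := b) (n := n) (τ := τ) i (X := fun a : Fin m => rO a)
    (D := fun a k => drO a k) (fun a => row3_rO a) (fun a k => row3_drO a k) (fun a => der_rO a)
  obtain ⟨iF, -⟩ := mean_sq_le (b := b) (n := n) (τ := τ) (Ψ := fun a : Fin m => firstO v a)
    (fun a => row3_firstO v a) i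
  obtain ⟨iV, hV⟩ := mean_sq_le (b := b) (n := n) (τ := τ)
    (Ψ := fun a : Fin m => delX fun G h => vv G h a) (fun a => Row3.delX (Rec.bd_vv a)) i
  rw [← hv] at hP iF iV hV
  have bM : Rec.Bd fun G (w : Vec m) => sq1 fun a => ∑ c, ∑ e, cm3 G w a c e :=
    Rec.Bd.sum fun a => (Rec.Bd.sum fun c => Rec.Bd.sum fun e => Rec.bd_cm3 a c e).pow 2
  have hF := seg_le (b := b) (n := n) (τ := τ) hτ (show m ≤ n by omega) bM
    (c := v ^ 4 / 2) (f := fun G h => ∑ a, rowMean v (firstO v a) G h ^ 2) (by positivity)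
    (fun G h => sum_nonneg fun a _ => sq_nonneg _) (fun G h => first_le v G h)
  have hmean : pEv b n m τ (fun G h => ∑ a, rowMean v (rO a) G h ^ 2) ≤
      2 * pEv b n m τ (fun G h => ∑ a, rowMean v (firstO v a) G h ^ 2) +
      8 * v ^ 2 * pEv b n m τ
        (fun G h => ∑ a, rowMean v (delX fun G h => vv G h a) G h ^ 2) := by
    refine (integral_mono_of_nonneg (ae_of_all _ fun g => sum_nonneg fun a _ => sq_nonneg _)
      ((iF.const_mul 2).add (iV.const_mul (8 * v ^ 2))) (ae_of_all _ fun g => ?_)).trans_eq ?_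
    · simp only [← hv, Pi.add_apply, mul_sum, ← sum_add_distrib]
      refine sum_le_sum fun a _ => ?_
      rw [rowMean_rO hv0]
      nlinarith [sq_nonneg (rowMean v (firstO v a) (plJ v g) (plU τ g) -
        2 * v * rowMean v (delX fun G h => vv G h a) (plJ v g) (plU τ g))]
    · rw [integral_add' (iF.const_mul 2) (iV.const_mul _), integral_const_mul, integral_const_mul]
      rfl
  simp only [at3_delX] at hV
  simp only [E1, E0, ← hv]
  rw [← hv] at hF
  nlinarith [mul_le_mul_of_nonneg_left hV (by positivity : 0 ≤ 8 * v ^ 2)]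

end Vale.Agent.P150.Weak.RespSoft
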