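import Vale.Agent.P150.Weak.RespSoft.Chaos
import Vale.Agent.P150.Weak.RespSoft.Mean
import Vale.Agent.P150.Weak.Resp.Alg

/-!
Linear response up to the chaos matrix: the rows of the error, beyond the exact second chaos, are
`o(1/n)` in mean square.
-/

open MeasureTheory ProbabilityTheory Finset Real

namespace Vale.Agent.P150.Weak.RespSoft

open Gap

variable {m : ℕ} {b : ℝ}

/-- The bound of a row, without the spin's own entry. -/
noncomputable def rowB (v : ℝ) (i : Fin (m + 1)) (J : Mat (m + 1)) (u : Vec (m + 1)) : ℝ :=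
  4 * ∑ a, at3 i (rO a) J u ^ 2 + 4 * ∑ a, at3 i (qO v a) J u ^ 2 +
    4 * v ^ 2 * ∑ a, del i (fun G w => ∑ c, cm2 G w a c) J u ^ 2 +
    16 * v ^ 2 * ∑ a, (vv J u (i.succAbove a) - bar i vv J u a) ^ 2

/-- A row of linear response plus the chaos, pointwise. -/
lemma row_le (n : ℕ) {J : Mat (m + 1)} (hJ : IsCoupling J) (u : Vec (m + 1)) (i : Fin (m + 1)) :
    ∑ j, (resid b n J u i j + chaosPart b n J u i j) ^ 2 ≤
      4 * (b ^ 2 / n) ^ 2 * vv J u i ^ 2 + rowB (b ^ 2 / n) i J u := by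
  set v := b ^ 2 / (n:ℝ) with hv
  have hm : mg J u i ^ 2 ≤ 1 := (sq_le_one_iff_abs_le_one _).2 (abs_mg_le J u i)
  have h0 : (resid b n J u i i + chaosPart b n J u i i) ^ 2 ≤ 4 * v ^ 2 * vv J u i ^ 2 := by
    rw [Resp.resid_self hJ u i, chaosPart, chaosRow, Fin.insertNth_apply_same, mul_zero, add_zero,
      neg_sq, ← hv]
    nlinarith [mul_nonneg (sub_nonneg.2 hm) (mul_nonneg (sq_nonneg v) (sq_nonneg (vv J u i)))]
  have h1 : ∀ a, (resid b n J u i (i.succAbove a) + chaosPart b n J u i (i.succAbove a)) ^ 2 ≤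
      4 * at3 i (rO a) J u ^ 2 + 4 * at3 i (qO v a) J u ^ 2 +
        4 * v ^ 2 * del i (fun G w => ∑ c, cm2 G w a c) J u ^ 2 +
        16 * v ^ 2 * (vv J u (i.succAbove a) - bar i vv J u a) ^ 2 := by
    intro a
    have hr : at3 i (rO a) J u = Resp.rV i J u a := by
      have e1 := at3_delX i (fun G h => mg G h a) J u
      have e2 := fun c => at3_barX i (fun G h => cm2 G h a c) J u
      simp only [at3] at e1 e2
      simp only [at3, rO, e1, e2, Resp.rV]
      simp [del, bar]
    have hd : del i (fun G w => ∑ c, cm2 G w a c) J u = Resp.dC1 i J u a := by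
      simp only [Resp.dC1, del, Pi.smul_apply, Pi.sub_apply, smul_eq_mul, ← mul_sum,
        ← sum_sub_distrib]
    have hq : chaosPart b n J u i (i.succAbove a) =
        mg J u i * (Resp.gV v i J u a - at3 i (qO v a) J u) := by
      rw [chaosPart, chaosRow, Fin.insertNth_apply_succAbove, at3_qO, Resp.gV, ← hv]
      ring
    rw [Resp.resid_rest hJ u i, hq, hr, hd, ← hv]
    set A := Resp.rV i J u a
    set B := at3 i (qO v a) J u
    set C := Resp.dC1 i J u a
    set D := vv J u (i.succAbove a) - bar i vv J u a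
    set μ := mg J u i
    have sc : ∀ x : ℝ, (μ * x) ^ 2 ≤ x ^ 2 := fun x => by
      rw [mul_pow]; exact mul_le_of_le_one_left (sq_nonneg _) hm
    have key : ∀ x y z w : ℝ, (x - y - z - w) ^ 2 ≤ 4 * (x ^ 2 + y ^ 2 + z ^ 2 + w ^ 2) :=
      fun x y z w => by
        nlinarith [sq_nonneg (x + y), sq_nonneg (x + z), sq_nonneg (x + w), sq_nonneg (y - z),
          sq_nonneg (y - w), sq_nonneg (z - w)]
    have e : A - μ * Resp.gV v i J u a - v * μ * C - 2 * v * μ * D +
        μ * (Resp.gV v i J u a - B) = A - μ * B - μ * (v * C) - μ * (2 * v * D) := by ring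
    rw [e]
    refine (key _ _ _ _).trans ?_
    have := sc B
    have := sc (v * C)
    have := sc (2 * v * D)
    nlinarith
  rw [Fin.sum_univ_succAbove _ i, rowB]
  simp only [mul_sum, ← sum_add_distrib]
  exact add_le_add h0 (sum_le_sum fun a _ => h1 a)

lemma row3_qO (v : ℝ) (a : Fin m) : Row3 (qO v a) := by
  unfold qO deltaX
  exact Row3.sum fun c => (((Row3.coord c).sub (Row3.const v)).mul (row3_fO v a c)).sub
    ((row3_dfO v a c c).const_mul v)

/-- The four parts of a row are integrable on the planted sample. -/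
lemma integrable_parts (v τ : ℝ) (i : Fin (m + 1)) :
    Integrable (fun g => ∑ a, at3 i (rO a) (plJ v g) (plU τ g) ^ 2) (gauss (Idx (m + 1))) ∧
    Integrable (fun g => ∑ a, at3 i (qO v a) (plJ v g) (plU τ g) ^ 2) (gauss (Idx (m + 1))) ∧
    Integrable (fun g => ∑ a, del i (fun G w => ∑ c, cm2 G w a c) (plJ v g) (plU τ g) ^ 2)
      (gauss (Idx (m + 1))) ∧
    Integrable (fun g => ∑ a, (vv (plJ v g) (plU τ g) (i.succAbove a) -
      bar i vv (plJ v g) (plU τ g) a) ^ 2) (gauss (Idx (m + 1))) := by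
  have h3 : Rec.Bd fun J u => ∑ a, del i (fun G w => ∑ c, cm2 G w a c) J u ^ 2 :=
    Rec.Bd.sum fun a => ((Rec.Bd.sum fun c => Rec.bd_cm2 (m := m) a c).delI i).pow 2
  have h4 : Rec.Bd fun J u => ∑ a, (vv J u (i.succAbove a) - bar i vv J u a) ^ 2 := by
    refine Rec.Bd.sum fun a => ((Rec.bd_vv (i.succAbove a)).sub ?_).pow 2
    simpa [bar] using (Rec.bd_vv (m := m) a).barI i
  exact ⟨((Row3.sum fun a => (row3_rO a).sq).tame_sample v τ i).integrable,
    ((Row3.sum fun a => (row3_qO v a).sq).tame_sample v τ i).integrable,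
    h3.integrable v τ, h4.integrable v τ⟩

lemma integrable_rowB (v τ : ℝ) (i : Fin (m + 1)) :
    Integrable (fun g => rowB v i (plJ v g) (plU τ g)) (gauss (Idx (m + 1))) := by
  obtain ⟨i1, i2, i3, i4⟩ := integrable_parts v τ i
  exact (((i1.const_mul 4).add (i2.const_mul 4)).add (i3.const_mul _)).add (i4.const_mul _)

/-- Every row is `o(1/n)`. -/
theorem rowB_rs (hC : CrudeSpec b) (hG : GrowSpec b) (hO : CenterSpec b) (hSl : SliceSpec b)
    (hR : RecSpec b) (hS : SoftSpec b) :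
    RS (fun n => (n:ℝ)⁻¹) fun n m i τ => pEv b n (m + 1) τ (rowB (b ^ 2 / n) i) := by
  refine (((((rO_rs hC hG hR hS).const_mul (c := 4) (by norm_num) fun n => by positivity).add
    ((qO_rs hC hR hS).const_mul (c := 4) (by norm_num) fun n => by positivity)).add
    ((dC1_rs hC hS).scale (Z := fun n => (n:ℝ)⁻¹) (fun n => 4 * (b ^ 2 / n) ^ 2) (4 * b ^ 4)
      (fun n _ => by positivity) (fun n => by positivity) fun n hn => ?_)).add
    ((vvRest_rs hC hG hO hSl hS).scale (Z := fun n => (n:ℝ)⁻¹) (fun n => 16 * (b ^ 2 / n) ^ 2)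
      (16 * b ^ 4) (fun n _ => by positivity) (fun n => by positivity) fun n hn => ?_)).mono
    fun n m i τ hτ hn hm => ?_
  · have : (n:ℝ) ≠ 0 := by positivity
    exact le_of_eq (by field_simp)
  · have : (n:ℝ) ≠ 0 := by positivity
    exact le_of_eq (by field_simp)
  obtain ⟨i1, i2, i3, i4⟩ := integrable_parts (b ^ 2 / n) τ i
  refine le_of_eq ?_
  have i12 := (i1.const_mul 4).add (i2.const_mul 4)
  have i123 := i12.add (i3.const_mul (4 * (b ^ 2 / (n:ℝ)) ^ 2))
  simp only [Pi.add_def] at i12 i123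
  simp only [pEv, rowB, E1]
  rw [integral_add i123 (i4.const_mul _), integral_add i12 (i3.const_mul _),
    integral_add (i1.const_mul 4) (i2.const_mul 4), integral_const_mul, integral_const_mul,
    integral_const_mul, integral_const_mul]

/-- **Linear response up to the chaos matrix.** -/
theorem respSoftSpec {b : ℝ} (hO : CenterSpec b) (hG : GrowSpec b) (hC : CrudeSpec b)
    (hSl : SliceSpec b) (hR : RecSpec b) (hS : SoftSpec b) : RespSoftSpec b := by
  intro η Tm ε k hη hε
  obtain ⟨N₁, hN₁⟩ := rowB_rs hC hG hO hSl hR hS η Tm (ε / 2) k hη (half_pos hε)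
  obtain ⟨C, hC'⟩ := hR.1 Tm
  obtain ⟨N₂, hN₂⟩ := exists_large (4 * b ^ 4 * |C|) (half_pos hε)
  refine ⟨max N₁ N₂, fun n m τ h1 h2 hn hm hk => ?_⟩
  simp only [max_le_iff] at hn
  obtain ⟨hn0, hlarge⟩ := hN₂ n hn.2
  have hn' : (0:ℝ) < n := Nat.cast_pos.2 hn0
  set v := b ^ 2 / (n:ℝ) with hv
  have iv : ∀ i, Integrable (fun g => 4 * v ^ 2 * vv (plJ v g) (plU τ g) i ^ 2)
      (gauss (Idx (m + 1))) := fun i => (((Rec.bd_vv i).pow 2).const_mul _).integrable v τ
  have ir : ∀ i, Integrable (fun g => 4 * v ^ 2 * vv (plJ v g) (plU τ g) i ^ 2 +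
      rowB v i (plJ v g) (plU τ g)) (gauss (Idx (m + 1))) := fun i =>
    (iv i).add (integrable_rowB v τ i)
  refine (integral_mono_of_nonneg (ae_of_all _ fun g => sum_nonneg fun i _ => sum_nonneg fun j _ =>
    sq_nonneg _) (integrable_finsetSum univ fun i _ => ir i)
    (ae_of_all _ fun g => sum_le_sum fun i _ => row_le n (isCoupling_plJ _ g) _ i)).trans ?_
  rw [integral_finsetSum _ fun i _ => ir i]
  simp only [fun i => integral_add (iv i) (integrable_rowB v τ i)]
  rw [sum_add_distrib]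
  have a1 : ∑ i, ∫ g, 4 * v ^ 2 * vv (plJ v g) (plU τ g) i ^ 2 ∂gauss (Idx (m + 1)) ≤ ε / 2 := by
    simp only [integral_const_mul, ← mul_sum]
    rw [← integral_finsetSum _ fun i _ => ((Rec.bd_vv i).pow 2).integrable v τ]
    refine (mul_le_mul_of_nonneg_left
      (((hC' n (m + 1) τ (by linarith) h2 hn0 hm).2.1).trans
        (mul_le_mul_of_nonneg_right (le_abs_self C) hn'.le)) (by positivity)).trans ?_
    have hsn : √(n:ℝ) ≤ n := Rec.sqrt_nat_le n
    rw [hv]; field_simp
    nlinarith [mul_le_mul_of_nonneg_left hsn (half_pos hε).le]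
  have a2 : ∑ i, ∫ g, rowB v i (plJ v g) (plU τ g) ∂gauss (Idx (m + 1)) ≤ ε / 2 := by
    refine (sum_le_sum fun i _ => hN₁ n m i τ h1 h2 hn.1 hm hk).trans ?_
    rw [sum_const, card_univ, Fintype.card_fin, nsmul_eq_mul]
    have hm' : ((m + 1 : ℕ) : ℝ) ≤ n := Nat.cast_le.2 hm
    refine (mul_le_mul_of_nonneg_right hm' (by positivity)).trans_eq ?_
    field_simp
  linarith

end Vale.Agent.P150.Weak.RespSoft
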