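import Vale.Agent.P150.Weak.RespSoft.Rows
import Vale.Agent.P150.Weak.RespSoft.Terms

/-!
The row `g - g₀`: it is the divergence of `F = del C - K ξ`, so it is small by the divergence
bound and the Poincaré inequality in the row, with the soft second moments.
-/

open MeasureTheory ProbabilityTheory Finset Real

namespace Vale.Agent.P150.Weak.RespSoft

open Gap

variable {m : ℕ} {b : ℝ}

/-- `F = del C - K ξ`. -/
noncomputable def fO (v : ℝ) (a c : Fin m) : Obs m := fun G h x =>
  delX (fun G h => cm2 G h a c) G h x - ∑ e, kR v G h a c e * (x e - v)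

/-- `∂F = bar T - K`. -/
noncomputable def dfO (v : ℝ) (a c d : Fin m) : Obs m := fun G h x =>
  barX (fun G h => cm3 G h a c d) G h x - kR v G h a c d

/-- `g - g₀`. -/
noncomputable def qO (v : ℝ) (a : Fin m) : Obs m := deltaX v (fO v a) (dfO v a)

lemma row3_fO (v : ℝ) (a c : Fin m) : Row3 (fO v a c) :=
  (Row3.delX (Rec.bd_cm2 a c)).sub (Row3.sum fun e =>
    (Row3.of_bd (bd_kR v a c e)).mul ((Row3.coord e).sub (Row3.const v)))

lemma row3_dfO (v : ℝ) (a c d : Fin m) : Row3 (dfO v a c d) :=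
  (Row3.barX (Rec.bd_cm3 a c d)).sub (Row3.of_bd (bd_kR v a c d))

lemma der_fO (v : ℝ) (a c : Fin m) : Der (fO v a c) (dfO v a c) := by
  refine ((Der.delX (lineDer1_cm2 a c)).sub (Der.sum (s := univ) fun e =>
    (Der.of_bd fun G h => kR v G h a c e).mul ((Der.coord e).sub (Der.const v)))).congr
    fun k G h x => ?_
  simp [dfO, mul_ite]

lemma der_dfO (v : ℝ) (a c d : Fin m) :
    Der (dfO v a c d) (fun e => delX fun G h => cm4 G h a c d e) :=
  ((Der.barX (lineDer1_cm3 a c d)).sub (Der.of_bd fun G h => kR v G h a c d)).congr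
    fun _ _ _ _ => sub_zero _

/-- `g - g₀` in the slice. -/
lemma at3_qO {J : Mat (m + 1)} (v : ℝ) (i : Fin (m + 1)) (u : Vec (m + 1)) (a : Fin m) :
    at3 i (qO v a) J u = (∑ c, del i cm2 J u a c * (rowOf i J c - v)) + 2 * v * bar i vv J u a -
      ((∑ c, ∑ e, kbar v i J u a c e * ((rowOf i J c - v) * (rowOf i J e - v))) -
        v * ∑ c, kbar v i J u a c c) := by
  have hv : ∑ c, at3 i (barX fun G h => cm3 G h a c c) J u = -2 * bar i vv J u a := by
    simp only [at3_barX, bar, Pi.smul_apply, Pi.add_apply, smul_eq_mul, ← mul_sum,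
      sum_add_distrib]
    have hs : ∀ (G : Mat m) (w : Vec m), ∑ c, cm3 G w a c c = -2 * vv G w a := fun G w => by
      rw [← sum_cm3_diag G w a]
      exact sum_congr rfl fun c _ => by rw [cm3_swap12, cm3_swap23]
    rw [hs, hs]; ring
  have hd : ∀ c, at3 i (delX fun G h => cm2 G h a c) J u = del i cm2 J u a c := fun c => by
    rw [at3_delX]; simp [del]
  simp only [kbar_eq]
  simp only [at3] at hv hd
  simp only [at3, qO, deltaX, fO, dfO, hd]
  have e : ∀ c, ∑ e, kR v (sub i J) (subU i u) a c e * ((rowOf i J c - v) * (rowOf i J e - v)) =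
      (rowOf i J c - v) * ∑ e, kR v (sub i J) (subU i u) a c e * (rowOf i J e - v) := fun c => by
    rw [mul_sum]; exact sum_congr rfl fun e _ => by ring
  simp only [e, mul_comm (del i cm2 J u a _) (rowOf i J _ - v)]
  simp only [mul_sub (rowOf i J _ - v), mul_sub v, sum_sub_distrib, ← mul_sum]
  rw [hv]
  ring

/-- The mean of `F`. -/
lemma rowMean_fO (v : ℝ) (a c : Fin m) (G : Mat m) (h : Vec m) :
    rowMean v (fO v a c) G h = rowMean v (delX fun G h => cm2 G h a c) G h := by
  have h1 := ((Row3.delX (Rec.bd_cm2 a c)).tame_slice v G h).integrable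
  have h2 : ∀ e, Integrable (fun r : Fin m → ℝ => kR v G h a c e * (√v * r e)) (gauss (Fin m)) :=
    fun e => ((Tame.const _).mul ((Tame.const _).mul (Tame.coord e))).integrable
  simp only [rowMean, fO]
  have e0 : ∀ (r : Fin m → ℝ) e, Rec.rv v r e - v = √v * r e := fun r e => by simp [Rec.rv]
  simp only [e0]
  rw [integral_sub h1 (integrable_finsetSum _ fun e _ => h2 e),
    integral_finsetSum _ fun e _ => h2 e]
  simp [integral_const_mul, integral_coord_zero]
where
  integral_coord_zero (e : Fin m) : ∫ r : Fin m → ℝ, r e ∂gauss (Fin m) = 0 := by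
    simpa using Weak.ibp (F := fun _ : Fin m → ℝ => (1:ℝ)) (D := fun _ => 0) (i := e)
      (Tame.const 1) (Tame.const 0) (fun g t => hasDerivAt_const t 1)

/-- The mean of `∂F` vanishes. -/
lemma rowMean_dfO (v : ℝ) (a c d : Fin m) (G : Mat m) (h : Vec m) :
    rowMean v (dfO v a c d) G h = 0 := by
  simp only [rowMean, dfO]
  rw [integral_sub ((Row3.barX (Rec.bd_cm3 a c d)).tame_slice v G h).integrable
    (integrable_const _)]
  simp [kR, rowMean]

/-- **The row `g - g₀` is `o(1/n)`.** -/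
theorem qO_rs (hC : CrudeSpec b) (hR : RecSpec b) (hS : SoftSpec b) :
    RS (fun n => (n:ℝ)⁻¹) fun n m i τ => pEv b n (m + 1) τ fun J u =>
      ∑ a, at3 i (qO (b ^ 2 / n) a) J u ^ 2 := by
  have hT := del_crude_rs (b := b) (κ := fun m => (Fin m × Fin m) × Fin m × Fin m)
    (φ := fun m q G w => cm4 G w q.1.1 q.1.2 q.2.1 q.2.2) (fun m q => Rec.bd_cm4 _ _ _ _)
    (by simp only [Fintype.sum_prod_type]; exact small_sq4 hC hR)
  have hM : Small (fun n => (n:ℝ) ^ 4) (E0 b fun m G u => Rec.tot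
      (fun (ac : Fin m × Fin m) k J u => cm3 J u ac.1 ac.2 k) G u ^ 2) := by
    have e : ∀ (m : ℕ) (G : Mat m) (u : Vec m), Rec.tot
        (fun (ac : Fin m × Fin m) k J u => cm3 J u ac.1 ac.2 k) G u =
          sq2 (app (cm3 G u) fun _ => 1) := fun m G u => by
      simp only [Rec.tot, sq2, app, one_mul, Fintype.sum_prod_type]
      refine sum_congr rfl fun a _ => sum_congr rfl fun c _ => ?_
      congr 1
      exact sum_congr rfl fun k _ => by rw [cm3_swap23, cm3_swap12]
    simp only [e]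
    exact small_T1 hC hS
  have hM' := (hM.shift (b := b)).rsqrt (X := fun n => (n:ℝ) ^ 2) (fun n => by positivity)
    fun n => le_of_eq (by ring)
  refine ((hM'.scale (Z := fun n => (n:ℝ)⁻¹) (fun n => (b ^ 2 / n) ^ 3 * exp (2 * b ^ 2))
      (b ^ 6 * exp (2 * b ^ 2)) (fun n _ => by positivity) (fun n => by positivity)
      fun n hn => ?_).add
    (hT.scale (Z := fun n => (n:ℝ)⁻¹) (fun n => 2 * (b ^ 2 / n) ^ 3) (2 * b ^ 6)
      (fun n _ => by positivity) (fun n => by positivity) fun n hn => ?_)).mono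
    fun n m i τ hτ hn hm => ?_
  · have : (n:ℝ) ≠ 0 := by positivity
    exact le_of_eq (by field_simp)
  · have : (n:ℝ) ≠ 0 := by positivity
    exact le_of_eq (by field_simp)
  set v := b ^ 2 / (n:ℝ) with hv
  have hv0 : 0 ≤ v := by positivity
  have hA := row_delta (b := b) (n := n) (τ := τ) i (X := fun a c => fO v a c)
    (D := fun a c d => dfO v a c d) (D2 := fun a c d e => delX fun G h => cm4 G h a c d e)
    (fun a c => row3_fO v a c) (fun a c d => row3_dfO v a c d)
    (fun a c d e => Row3.delX (Rec.bd_cm4 a c d e)) (fun a c => der_fO v a c)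
    (fun a c d => der_dfO v a c d) (fun a c d e G h x => by simp only [Rec.cm4_swap34 _ _ a c d e])
  have hP := row_poincare (b := b) (n := n) (τ := τ) i
    (X := fun ac : Fin m × Fin m => fO v ac.1 ac.2) (D := fun ac d => dfO v ac.1 ac.2 d)
    (fun ac => row3_fO v ac.1 ac.2) (fun ac d => row3_dfO v ac.1 ac.2 d)
    (fun ac => der_fO v ac.1 ac.2)
  have hD := row_poincare (b := b) (n := n) (τ := τ) i
    (X := fun q : Fin m × Fin m × Fin m => dfO v q.1 q.2.1 q.2.2)
    (D := fun q e => delX fun G h => cm4 G h q.1 q.2.1 q.2.2 e)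
    (fun q => row3_dfO v q.1 q.2.1 q.2.2) (fun q e => Row3.delX (Rec.bd_cm4 _ _ _ _))
    (fun q => der_dfO v q.1 q.2.1 q.2.2)
  rw [← hv] at hA hP hD
  simp only [rowMean_dfO, zero_pow two_ne_zero, sum_const_zero, pEv, integral_zero, zero_add]
    at hD
  have hMean : pEv b n m τ (fun G h => ∑ ac : Fin m × Fin m, rowMean v (fO v ac.1 ac.2) G h ^ 2) ≤
      v ^ 2 / 2 * (2 * (exp (2 * b ^ 2) * √(pEv b n m (τ + v) fun G u => Rec.tot
        (fun (ac : Fin m × Fin m) k J u => cm3 J u ac.1 ac.2 k) G u ^ 2))) := by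
    simp only [rowMean_fO]
    refine seg_le hτ (by omega) (Rec.bd_tot fun ac k => Rec.bd_cm3 _ _ _) (by positivity)
      (fun G h => sum_nonneg fun ac _ => sq_nonneg _) fun G h => ?_
    exact Rec.mean_row_le (φ := fun (ac : Fin m × Fin m) J u => cm2 J u ac.1 ac.2)
      (fun ac => Rec.bd_cm2 _ _) (fun ac k => Rec.bd_cm3 _ _ _)
      (fun ac G u c t => Rec.hasDerivAt_cm2_line G u c _ _ t) v G h
  simp only [Fintype.sum_prod_type, at3_delX] at hP hD hMean
  simp only [E1, E0, Fintype.sum_prod_type, ← hv, qO]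
  simp only [pEv, ← hv] at hA hP hD hMean ⊢
  nlinarith [mul_le_mul_of_nonneg_left (hP.trans (add_le_add hMean le_rfl)) hv0,
    mul_le_mul_of_nonneg_left hD (sq_nonneg v)]

end Vale.Agent.P150.Weak.RespSoft
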