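import Vale.Agent.P150.Weak.Upd
import Vale.Agent.P150.Weak.Rec.Row
import Vale.Agent.P150.Weak.Gauss.Delta

/-!
Observables of a subsystem and a row: their partial derivatives in the row, the Gaussian Poincaré
inequality and the divergence bound, averaged over the planted family.
-/

open MeasureTheory ProbabilityTheory Finset
open scoped Classical

namespace Vale.Agent.P150.Weak.RespSoft

open Gap

variable {m : ℕ}

/-- An observable of couplings, fields and a row. -/
abbrev Obs (m : ℕ) := Mat m → Vec m → Vec m → ℝ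

/-- An observable of the subsystem and the row of the spin `i`. -/
def at3 (i : Fin (m + 1)) (ψ : Obs m) (J : Mat (m + 1)) (u : Vec (m + 1)) : ℝ :=
  ψ (sub i J) (subU i u) (rowOf i J)

/-- The half sum as a function of the row. -/
noncomputable def barX (φ : Mat m → Vec m → ℝ) : Obs m := fun G h x => (φ G (h + x) + φ G (h - x)) / 2

/-- The half difference as a function of the row. -/
noncomputable def delX (φ : Mat m → Vec m → ℝ) : Obs m := fun G h x => (φ G (h + x) - φ G (h - x)) / 2

lemma at3_barX (i : Fin (m + 1)) (φ : Mat m → Vec m → ℝ) (J : Mat (m + 1)) (u : Vec (m + 1)) :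
    at3 i (barX φ) J u = bar i φ J u := by
  simp only [at3, barX, bar, smul_eq_mul]; ring

lemma at3_delX (i : Fin (m + 1)) (φ : Mat m → Vec m → ℝ) (J : Mat (m + 1)) (u : Vec (m + 1)) :
    at3 i (delX φ) J u = del i φ J u := by
  simp only [at3, delX, del, smul_eq_mul]; ring

/-- Continuous, of polynomial growth in the row, uniformly in the subsystem. -/
def Row3 (ψ : Obs m) : Prop :=
  (Continuous fun q : (Mat m × Vec m) × Vec m => ψ q.1.1 q.1.2 q.2) ∧
    ∃ C : ℝ, ∃ K : ℕ, ∀ G h x, |ψ G h x| ≤ C * (1 + ∑ a, |x a|) ^ K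

namespace Row3

variable {ψ χ : Obs m} {α : Type*}

lemma one_le (x : Vec m) : (1:ℝ) ≤ 1 + ∑ a, |x a| :=
  le_add_of_nonneg_right (sum_nonneg fun a _ => abs_nonneg _)

lemma of_bounded (hc : Continuous fun q : (Mat m × Vec m) × Vec m => ψ q.1.1 q.1.2 q.2) {B : ℝ}
    (h : ∀ G h x, |ψ G h x| ≤ B) : Row3 ψ := ⟨hc, B, 0, fun G hh x => by simpa using h G hh x⟩

lemma const (c : ℝ) : Row3 (fun (_ : Mat m) (_ : Vec m) (_ : Vec m) => c) :=
  of_bounded continuous_const fun _ _ _ => le_rfl

lemma coord (a : Fin m) : Row3 (fun (_ : Mat m) (_ : Vec m) (x : Vec m) => x a) :=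
  ⟨(continuous_apply a).comp continuous_snd, 1, 1, fun G h x => by
    rw [one_mul, pow_one]
    exact (single_le_sum (f := fun a => |x a|) (fun _ _ => abs_nonneg _) (mem_univ a)).trans
      (le_add_of_nonneg_left zero_le_one)⟩

lemma add (hψ : Row3 ψ) (hχ : Row3 χ) : Row3 fun G h x => ψ G h x + χ G h x := by
  obtain ⟨c1, C, K, hC⟩ := hψ
  obtain ⟨c2, C', K', hC'⟩ := hχ
  refine ⟨c1.add c2, |C| + |C'|, K + K', fun G h x => (abs_add_le _ _).trans ?_⟩
  have h1 := one_le x
  rw [add_mul]
  refine add_le_add ((hC G h x).trans ?_) ((hC' G h x).trans ?_)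
  · exact mul_le_mul (le_abs_self C) (pow_le_pow_right₀ h1 (by omega)) (by positivity) (abs_nonneg _)
  · exact mul_le_mul (le_abs_self C') (pow_le_pow_right₀ h1 (by omega)) (by positivity)
      (abs_nonneg _)

lemma mul (hψ : Row3 ψ) (hχ : Row3 χ) : Row3 fun G h x => ψ G h x * χ G h x := by
  obtain ⟨c1, C, K, hC⟩ := hψ
  obtain ⟨c2, C', K', hC'⟩ := hχ
  refine ⟨c1.mul c2, C * C', K + K', fun G h x => ?_⟩
  rw [abs_mul, pow_add, mul_mul_mul_comm]
  exact mul_le_mul (hC G h x) (hC' G h x) (abs_nonneg _) ((abs_nonneg _).trans (hC G h x))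

lemma const_mul (hψ : Row3 ψ) (c : ℝ) : Row3 fun G h x => c * ψ G h x := (const c).mul hψ

lemma sub (hψ : Row3 ψ) (hχ : Row3 χ) : Row3 fun G h x => ψ G h x - χ G h x := by
  have h := hψ.add (hχ.const_mul (-1))
  simpa [sub_eq_add_neg] using h

lemma sum {s : Finset α} {F : α → Obs m} (h : ∀ a, Row3 (F a)) :
    Row3 fun G hh x => ∑ a ∈ s, F a G hh x := by
  induction s using Finset.induction with
  | empty => simpa using const (m := m) 0
  | @insert a s ha ih =>
    simp only [Finset.sum_insert ha]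
    exact (h a).add ih

lemma sq (hψ : Row3 ψ) : Row3 fun G h x => ψ G h x ^ 2 := by
  simpa only [pow_two] using hψ.mul hψ

/-- An observable that ignores the row. -/
lemma of_bd {φ : Mat m → Vec m → ℝ} (hφ : Rec.Bd φ) : Row3 (fun G h (_ : Vec m) => φ G h) :=
  of_bounded (hφ.1.comp continuous_fst) (B := hφ.2.choose) fun G h _ => hφ.2.choose_spec G h

lemma barX {φ : Mat m → Vec m → ℝ} (hφ : Rec.Bd φ) : Row3 (RespSoft.barX φ) := by
  obtain ⟨B, hB⟩ := hφ.2
  refine of_bounded (B := B) ?_ fun G h x => ?_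
  · exact ((hφ.1.comp (f := fun q : (Mat m × Vec m) × Vec m => (q.1.1, q.1.2 + q.2))
      (by fun_prop)).add (hφ.1.comp
        (f := fun q : (Mat m × Vec m) × Vec m => (q.1.1, q.1.2 - q.2)) (by fun_prop))).div_const 2
  · have h1 := abs_le.1 (hB G (h + x))
    have h2 := abs_le.1 (hB G (h - x))
    simp only [RespSoft.barX, abs_le]
    constructor <;> linarith

lemma delX {φ : Mat m → Vec m → ℝ} (hφ : Rec.Bd φ) : Row3 (RespSoft.delX φ) := by
  obtain ⟨B, hB⟩ := hφ.2
  refine of_bounded (B := B) ?_ fun G h x => ?_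
  · exact ((hφ.1.comp (f := fun q : (Mat m × Vec m) × Vec m => (q.1.1, q.1.2 + q.2))
      (by fun_prop)).sub (hφ.1.comp
        (f := fun q : (Mat m × Vec m) × Vec m => (q.1.1, q.1.2 - q.2)) (by fun_prop))).div_const 2
  · have h1 := abs_le.1 (hB G (h + x))
    have h2 := abs_le.1 (hB G (h - x))
    simp only [RespSoft.delX, abs_le]
    constructor <;> linarith

/-- The observable over the row's Gaussians. -/
lemma tame_slice (hψ : Row3 ψ) (v : ℝ) (G : Mat m) (h : Vec m) :
    Tame fun r : Fin m → ℝ => ψ G h (Rec.rv v r) := by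
  obtain ⟨hc, C, K, hC⟩ := hψ
  refine ⟨hc.comp (f := fun r : Fin m → ℝ => ((G, h), Rec.rv v r)) (by unfold Rec.rv; fun_prop),
    |C| * (1 + ((m:ℝ) * |v| + √v)) ^ K, K, fun r => (hC _ _ _).trans ?_⟩
  rw [mul_assoc, ← mul_pow]
  refine mul_le_mul (le_abs_self C) (pow_le_pow_left₀ (by positivity) ?_ K) (by positivity)
    (abs_nonneg _)
  have h1 : ∑ a, |Rec.rv v r a| ≤ ∑ a : Fin m, (|v| + √v * |r a|) := sum_le_sum fun a _ => by
    refine (abs_add_le _ _).trans ?_
    rw [abs_mul, abs_of_nonneg (Real.sqrt_nonneg v)]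
  simp only [sum_add_distrib, sum_const, card_univ, Fintype.card_fin, nsmul_eq_mul, ← mul_sum] at h1
  have h2 : 0 ≤ (m:ℝ) * |v| := by positivity
  have h3 : 0 ≤ ∑ a, |r a| := sum_nonneg fun a _ => abs_nonneg _
  nlinarith [Real.sqrt_nonneg v, mul_nonneg h2 h3]

/-- The observable on the planted sample. -/
lemma tame_sample (hψ : Row3 ψ) (v τ : ℝ) (i : Fin (m + 1)) :
    Tame fun g : Idx (m + 1) → ℝ => at3 i ψ (plJ v g) (plU τ g) := by
  obtain ⟨hc, C, K, hC⟩ := hψ
  refine ⟨hc.comp (f := fun g : Idx (m + 1) → ℝ =>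
    ((Weak.sub i (plJ v g), subU i (plU τ g)), rowOf i (plJ v g)))
    (by unfold Weak.sub subU rowOf; fun_prop), |C| * (1 + ((m:ℝ) * |v| + m * √v)) ^ K, K,
    fun g => (hC _ _ _).trans ?_⟩
  rw [mul_assoc, ← mul_pow]
  refine mul_le_mul (le_abs_self C) (pow_le_pow_left₀ (by positivity) ?_ K) (by positivity)
    (abs_nonneg _)
  have h1 : ∀ a, |rowOf i (plJ v g) a| ≤ |v| + √v * ∑ k, |g k| := by
    intro a
    simp only [rowOf, plJ, if_neg (Fin.succAbove_ne i a).symm]
    refine (abs_add_le _ _).trans (add_le_add le_rfl ?_)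
    rw [abs_mul, abs_of_nonneg (Real.sqrt_nonneg v)]
    refine mul_le_mul_of_nonneg_left ?_ (Real.sqrt_nonneg v)
    unfold Gap.sym
    split_ifs
    · exact single_le_sum (f := fun k => |g k|) (fun _ _ => abs_nonneg _) (mem_univ _)
    · exact single_le_sum (f := fun k => |g k|) (fun _ _ => abs_nonneg _) (mem_univ _)
    · simp only [abs_zero]; positivity
  have h2 := sum_le_sum fun a (_ : a ∈ univ) => h1 a
  simp only [sum_const, card_univ, Fintype.card_fin, nsmul_eq_mul] at h2
  have h3 : 0 ≤ (m:ℝ) * |v| := by positivity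
  have h4 : 0 ≤ (m:ℝ) * √v := by positivity
  have h5 : 0 ≤ ∑ k, |g k| := sum_nonneg fun k _ => abs_nonneg _
  nlinarith [mul_nonneg h3 h5]

end Row3

/-- Partial derivatives in the row. -/
def Der (ψ : Obs m) (D : Fin m → Obs m) : Prop :=
  ∀ G h x k t, HasDerivAt (fun s => ψ G h (Function.update x k s))
    (D k G h (Function.update x k t)) t

namespace Der

variable {ψ χ : Obs m} {D E : Fin m → Obs m} {α : Type*}

lemma const (c : ℝ) : Der (fun (_ : Mat m) (_ : Vec m) (_ : Vec m) => c) (fun _ _ _ _ => 0) :=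
  fun _ _ _ _ t => hasDerivAt_const t c

lemma of_bd (φ : Mat m → Vec m → ℝ) : Der (fun G h (_ : Vec m) => φ G h) (fun _ _ _ _ => 0) :=
  fun G h _ _ t => hasDerivAt_const t (φ G h)

lemma coord (c : Fin m) :
    Der (fun (_ : Mat m) (_ : Vec m) (x : Vec m) => x c) (fun k _ _ _ => if c = k then 1 else 0) :=
  fun G h x k t => by
    refine (hasDerivAt_pi.1 (hasDerivAt_update x k t) c).congr_deriv ?_
    simp [Pi.single_apply]

lemma add (h1 : Der ψ D) (h2 : Der χ E) :
    Der (fun G h x => ψ G h x + χ G h x) (fun k G h x => D k G h x + E k G h x) :=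
  fun G h x k t => (h1 G h x k t).add (h2 G h x k t)

lemma sub (h1 : Der ψ D) (h2 : Der χ E) :
    Der (fun G h x => ψ G h x - χ G h x) (fun k G h x => D k G h x - E k G h x) :=
  fun G h x k t => (h1 G h x k t).sub (h2 G h x k t)

lemma mul (h1 : Der ψ D) (h2 : Der χ E) :
    Der (fun G h x => ψ G h x * χ G h x)
      (fun k G h x => D k G h x * χ G h x + ψ G h x * E k G h x) :=
  fun G h x k t => (h1 G h x k t).mul (h2 G h x k t)

lemma sum {s : Finset α} {F : α → Obs m} {DF : α → Fin m → Obs m} (h : ∀ a, Der (F a) (DF a)) :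
    Der (fun G hh x => ∑ a ∈ s, F a G hh x) (fun k G hh x => ∑ a ∈ s, DF a k G hh x) :=
  fun G hh x k t => HasDerivAt.fun_sum fun a _ => h a G hh x k t

lemma congr {D' : Fin m → Obs m} (h1 : Der ψ D) (h : ∀ k G hh x, D k G hh x = D' k G hh x) :
    Der ψ D' := fun G hh x k t => h k G hh _ ▸ h1 G hh x k t

end Der

section lift

variable {φ : Mat m → Vec m → ℝ} {D : Fin m → Mat m → Vec m → ℝ}

/-- Partial derivatives of a function of couplings and fields along lines. -/
def LineDer1 (φ : Mat m → Vec m → ℝ) (D : Fin m → Mat m → Vec m → ℝ) : Prop :=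
  ∀ G u c t, HasDerivAt (fun s : ℝ => φ G (u + s • c)) (∑ k, c k * D k G (u + t • c)) t

lemma LineDer1.partialDeriv (hd : LineDer1 φ D) (G : Mat m) (h x : Vec m) (k : Fin m) (t : ℝ) :
    HasDerivAt (fun s => φ G (h + Function.update x k s)) (D k G (h + Function.update x k t)) t ∧
      HasDerivAt (fun s => φ G (h - Function.update x k s))
        (-D k G (h - Function.update x k t)) t := by
  set w := Function.update x k t
  set c : Vec m := Pi.single k 1
  have e : ∀ s, Function.update x k s = w + (s - t) • c := fun s => by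
    funext j
    simp only [w, c, Pi.add_apply, Pi.smul_apply, smul_eq_mul]
    rcases eq_or_ne j k with rfl | hj
    · simp
    · simp [hj]
  have hs : ∀ u, ∑ j, c j * D j G u = D k G u := fun u => by simp [c, Pi.single_apply]
  constructor
  · have h1 := HasDerivAt.comp_sub_const t t (hd G (h + w) c (t - t))
    simp only [hs, sub_self, zero_smul, add_zero, Function.comp_def] at h1
    refine h1.congr_of_eventuallyEq (Filter.Eventually.of_forall fun s => ?_)
    simp only [e s, add_assoc]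
  · have h1 := HasDerivAt.comp_sub_const t t (hd G (h - w) (-c) (t - t))
    have hs' : ∀ u, ∑ j, (-c) j * D j G u = -D k G u := fun u => by
      simp only [Pi.neg_apply, neg_mul, sum_neg_distrib, hs]
    simp only [hs', sub_self, zero_smul, add_zero, Function.comp_def] at h1
    refine h1.congr_of_eventuallyEq (Filter.Eventually.of_forall fun s => ?_)
    simp only [e s]
    congr 1
    funext j
    simp only [Pi.sub_apply, Pi.add_apply, Pi.smul_apply, Pi.neg_apply, smul_eq_mul]
    ring

lemma Der.barX (hd : LineDer1 φ D) : Der (RespSoft.barX φ) (fun k => RespSoft.delX (D k)) := by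
  intro G h x k t
  obtain ⟨h1, h2⟩ := hd.partialDeriv G h x k t
  exact ((h1.add h2).div_const 2).congr_deriv (by simp only [RespSoft.delX]; ring)

lemma Der.delX (hd : LineDer1 φ D) : Der (RespSoft.delX φ) (fun k => RespSoft.barX (D k)) := by
  intro G h x k t
  obtain ⟨h1, h2⟩ := hd.partialDeriv G h x k t
  exact ((h1.sub h2).div_const 2).congr_deriv (by simp only [RespSoft.barX]; ring)

end lift

/-- The mean of an observable over the row. -/
noncomputable def rowMean (v : ℝ) (ψ : Obs m) (G : Mat m) (h : Vec m) : ℝ :=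
  ∫ r, ψ G h (Rec.rv v r) ∂gauss (Fin m)

section planted

variable {κ : Type*} [Fintype κ] {b : ℝ} {n : ℕ} {τ : ℝ}

lemma at3_join (v τ : ℝ) (i : Fin (m + 1)) (ψ : Obs m) (g : Idx m → ℝ) (r : Fin m → ℝ) (t : ℝ) :
    at3 i ψ (plJ v (join i g r t)) (plU τ (join i g r t)) =
      ψ (plJ v g) (plU τ g) (Rec.rv v r) := by
  simp only [at3, sub_plJ, subU_plU, rowOf_plJ]
  rfl

lemma pEv_at3 {ψ : Obs m} (hψ : Row3 ψ) (i : Fin (m + 1)) :
    pEv b n (m + 1) τ (at3 i ψ) =
        ∫ g, rowMean (b ^ 2 / n) ψ (plJ (b ^ 2 / n) g) (plU τ g) ∂gauss (Idx m) ∧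
      Integrable (fun g => rowMean (b ^ 2 / n) ψ (plJ (b ^ 2 / n) g) (plU τ g)) (gauss (Idx m)) := by
  set v := b ^ 2 / (n:ℝ) with hv
  have hi := (hψ.tame_sample v τ i).integrable
  refine ⟨?_, ?_⟩
  · rw [pEv_split i (F := at3 i ψ) hi, ← hv]
    simp only [at3_join, integral_const, probReal_univ, one_smul]
    rfl
  · have hp := (measurePreserving_join i).integrable_comp_of_integrable hi
    simp only [Function.comp_def, at3_join] at hp
    refine hp.integral_prod_left.congr (ae_of_all _ fun g => ?_)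
    show ∫ q : (Fin m → ℝ) × ℝ, ψ (plJ v g) (plU τ g) (Rec.rv v q.1)
      ∂(gauss (Fin m)).prod (gaussianReal 0 1) = rowMean v ψ (plJ v g) (plU τ g)
    rw [integral_fun_fst (μ := gauss (Fin m)) (ν := gaussianReal 0 1)
      fun r => ψ (plJ v g) (plU τ g) (Rec.rv v r), probReal_univ, one_smul]
    rfl

lemma aestronglyMeasurable_rowMean {ψ : Obs m} (hψ : Row3 ψ) (v τ : ℝ) :
    AEStronglyMeasurable (fun g : Idx m → ℝ => rowMean v ψ (plJ v g) (plU τ g)) (gauss (Idx m)) := by
  have hc : Continuous fun q : (Idx m → ℝ) × (Fin m → ℝ) =>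
      ψ (plJ v q.1) (plU τ q.1) (Rec.rv v q.2) :=
    hψ.1.comp (f := fun q : (Idx m → ℝ) × (Fin m → ℝ) => ((plJ v q.1, plU τ q.1), Rec.rv v q.2))
      (by unfold Rec.rv; fun_prop)
  exact hc.stronglyMeasurable.integral_prod_right'.aestronglyMeasurable

/-- **Poincaré in the row.** -/
theorem row_poincare (i : Fin (m + 1)) {X : κ → Obs m} {D : κ → Fin m → Obs m}
    (hX : ∀ a, Row3 (X a)) (hD : ∀ a k, Row3 (D a k)) (hd : ∀ a, Der (X a) (D a)) :
    pEv b n (m + 1) τ (fun J u => ∑ a, at3 i (X a) J u ^ 2) ≤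
      pEv b n m τ (fun G h => ∑ a, rowMean (b ^ 2 / n) (X a) G h ^ 2) +
        b ^ 2 / n * pEv b n (m + 1) τ (fun J u => ∑ a, ∑ k, at3 i (D a k) J u ^ 2) := by
  set v := b ^ 2 / (n:ℝ) with hv
  have hv0 : 0 ≤ v := by positivity
  have hA : Row3 (fun G h x => ∑ a, X a G h x ^ 2) := Row3.sum fun a => (hX a).sq
  have hB : Row3 (fun G h x => ∑ a, ∑ k, D a k G h x ^ 2) :=
    Row3.sum fun a => Row3.sum fun k => (hD a k).sq
  obtain ⟨eA, iA⟩ := pEv_at3 (b := b) (n := n) (τ := τ) hA i
  obtain ⟨eB, iB⟩ := pEv_at3 (b := b) (n := n) (τ := τ) hB i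
  rw [← hv] at eA iA eB iB
  have hle : ∀ G h, rowMean v (fun G h x => ∑ a, X a G h x ^ 2) G h ≤
      ∑ a, rowMean v (X a) G h ^ 2 +
        v * rowMean v (fun G h x => ∑ a, ∑ k, D a k G h x ^ 2) G h := by
    intro G h
    have hdr : ∀ k a r t, HasDerivAt (fun s => X a G h (Rec.rv v (Function.update r k s)))
        (√v * D a k G h (Rec.rv v (Function.update r k t))) t := by
      intro k a r t
      have e : ∀ s, Rec.rv v (Function.update r k s) =
          Function.update (Rec.rv v r) k (v + √v * s) := fun s => by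
        funext j
        rcases eq_or_ne j k with rfl | hj
        · simp [Rec.rv]
        · simp [Rec.rv, hj]
      simp only [e]
      have hlin : HasDerivAt (fun s => v + √v * s) (√v) t := by
        simpa using ((hasDerivAt_id t).const_mul (√v)).const_add v
      exact ((hd a G h (Rec.rv v r) k _).comp t hlin).congr_deriv (mul_comm _ _)
    have h1 := poincare_vec (F := fun a r => X a G h (Rec.rv v r))
      (D := fun k a r => √v * D a k G h (Rec.rv v r)) (fun a => ((hX a).tame_slice v G h).1)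
      (fun a => ((hX a).tame_slice v G h).memLp_two)
      (fun k a => continuous_const.mul ((hD a k).tame_slice v G h).1)
      (fun k a r t => by simpa only [update_eq_upd] using hdr k a r t)
      (fun k a => (((Tame.const _).mul ((hD a k).tame_slice v G h)).pow 2).integrable)
    refine le_trans (le_of_eq rfl) (h1.trans (le_of_eq ?_))
    refine congrArg₂ (· + ·) rfl ?_
    simp only [rowMean, ← integral_const_mul, mul_sum, mul_pow, Real.sq_sqrt hv0]
  have hmean : Integrable (fun g => ∑ a, rowMean v (X a) (plJ v g) (plU τ g) ^ 2) (gauss (Idx m)) := by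
    refine integrable_finsetSum _ fun a _ => ?_
    obtain ⟨-, i2⟩ := pEv_at3 (b := b) (n := n) (τ := τ) (hX a).sq i
    rw [← hv] at i2
    refine i2.mono' ((aestronglyMeasurable_rowMean (hX a) v τ).pow 2) (ae_of_all _ fun g => ?_)
    rw [Real.norm_eq_abs, abs_of_nonneg (sq_nonneg _)]
    have ht := (hX a).tame_slice v (plJ v g) (plU τ g)
    have := poincare_zero ht
    exact this
  have eA' : pEv b n (m + 1) τ (fun J u => ∑ a, at3 i (X a) J u ^ 2) = _ := eA
  have eB' : pEv b n (m + 1) τ (fun J u => ∑ a, ∑ k, at3 i (D a k) J u ^ 2) = _ := eB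
  rw [eA', eB', pEv, ← hv, ← integral_const_mul, ← integral_add hmean (iB.const_mul v)]
  exact integral_mono iA (hmean.add (iB.const_mul v)) fun g => hle _ _
where
  poincare_zero {f : (Fin m → ℝ) → ℝ} (hf : Tame f) :
      (∫ r, f r ∂gauss (Fin m)) ^ 2 ≤ ∫ r, f r ^ 2 ∂gauss (Fin m) := by
    have h := Rec.sq_integral_le (μ := gauss (Fin m)) hf.integrable (hf.pow 2).integrable
    simpa using h

/-- `δ X = (x - v)·X - v div X` as an observable. -/
noncomputable def deltaX (v : ℝ) (X : Fin m → Obs m) (D : Fin m → Fin m → Obs m) : Obs m :=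
  fun G h x => ∑ c, ((x c - v) * X c G h x - v * D c c G h x)

/-- **(D) in the row**: `E|δ X|² ≤ v E|X|² + v² E‖∂X‖²`; `D c d` is `∂_d X_c`. -/
theorem row_delta (i : Fin (m + 1)) {X : κ → Fin m → Obs m} {D : κ → Fin m → Fin m → Obs m}
    {D2 : κ → Fin m → Fin m → Fin m → Obs m} (hX : ∀ a c, Row3 (X a c))
    (hD : ∀ a c d, Row3 (D a c d)) (hD2 : ∀ a c d e, Row3 (D2 a c d e))
    (hd : ∀ a c, Der (X a c) (D a c)) (hd2 : ∀ a c d, Der (D a c d) (D2 a c d))
    (hsymm : ∀ a c d e G h x, D2 a c d e G h x = D2 a c e d G h x) :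
    pEv b n (m + 1) τ (fun J u => ∑ a, at3 i (deltaX (b ^ 2 / n) (X a) (D a)) J u ^ 2) ≤
      b ^ 2 / n * pEv b n (m + 1) τ (fun J u => ∑ a, ∑ c, at3 i (X a c) J u ^ 2) +
        (b ^ 2 / n) ^ 2 *
          pEv b n (m + 1) τ (fun J u => ∑ a, ∑ c, ∑ d, at3 i (D a c d) J u ^ 2) := by
  set v := b ^ 2 / (n:ℝ) with hv
  have hv0 : 0 ≤ v := by positivity
  have hA : Row3 (fun G h x => ∑ a, deltaX v (X a) (D a) G h x ^ 2) := Row3.sum fun a =>
    (Row3.sum fun c => (((Row3.coord c).sub (Row3.const v)).mul (hX a c)).sub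
      ((hD a c c).const_mul v) : Row3 (deltaX v (X a) (D a))).sq
  have hB : Row3 (fun G h x => ∑ a, ∑ c, X a c G h x ^ 2) :=
    Row3.sum fun a => Row3.sum fun c => (hX a c).sq
  have hC : Row3 (fun G h x => ∑ a, ∑ c, ∑ d, D a c d G h x ^ 2) :=
    Row3.sum fun a => Row3.sum fun c => Row3.sum fun d => (hD a c d).sq
  obtain ⟨eA, iA⟩ := pEv_at3 (b := b) (n := n) (τ := τ) hA i
  obtain ⟨eB, iB⟩ := pEv_at3 (b := b) (n := n) (τ := τ) hB i
  obtain ⟨eC, iC⟩ := pEv_at3 (b := b) (n := n) (τ := τ) hC i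
  rw [← hv] at eA iA eB iB eC iC
  have hle : ∀ G h, rowMean v (fun G h x => ∑ a, deltaX v (X a) (D a) G h x ^ 2) G h ≤
      v * rowMean v (fun G h x => ∑ a, ∑ c, X a c G h x ^ 2) G h +
        v ^ 2 * rowMean v (fun G h x => ∑ a, ∑ c, ∑ d, D a c d G h x ^ 2) G h := by
    intro G h
    have tame : ∀ {ψ : Obs m}, Row3 ψ → Continuous (fun r : Fin m → ℝ => ψ G h (Rec.rv v r)) ∧
        PolyBd fun r : Fin m → ℝ => ψ G h (Rec.rv v r) :=
      fun hψ => ⟨(hψ.tame_slice v G h).1, (hψ.tame_slice v G h).2⟩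
    have e : ∀ (r : Fin m → ℝ) (k : Fin m) (s : ℝ), Rec.rv v (Function.update r k s) =
        Function.update (Rec.rv v r) k (v + √v * s) := fun r k s => by
      funext j
      rcases eq_or_ne j k with rfl | hj
      · simp [Rec.rv]
      · simp [Rec.rv, hj]
    have hlin : ∀ t, HasDerivAt (fun s => v + √v * s) (√v) t := fun t => by
      simpa using ((hasDerivAt_id t).const_mul (√v)).const_add v
    have hd1' : ∀ (a : κ) (d c : Fin m) (r : Fin m → ℝ) (t : ℝ),
        HasDerivAt (fun s => X a c G h (Rec.rv v (Function.update r d s)))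
          (√v * D a c d G h (Rec.rv v (Function.update r d t))) t := fun a d c r t => by
      simp only [e]
      exact ((hd a c G h (Rec.rv v r) d _).comp t (hlin t)).congr_deriv (mul_comm _ _)
    have hd2' : ∀ (a : κ) (k d c : Fin m) (r : Fin m → ℝ) (t : ℝ),
        HasDerivAt (fun s => √v * D a c d G h (Rec.rv v (Function.update r k s)))
          (√v * (√v * D2 a c d k G h (Rec.rv v (Function.update r k t)))) t := fun a k d c r t => by
      simp only [e]
      exact (((hd2 a c d G h (Rec.rv v r) k _).comp t (hlin t)).const_mul (√v)).congr_deriv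
        (by ring)
    have h1 := integral_sum_gDelta_sq_le (X := fun a c r => X a c G h (Rec.rv v r))
      (D := fun a d c r => √v * D a c d G h (Rec.rv v r))
      (D2 := fun a e d c r => √v * (√v * D2 a c d e G h (Rec.rv v r)))
      (fun a c => (tame (hX a c)).1) (fun a d c => continuous_const.mul (tame (hD a c d)).1)
      (fun a e d c => continuous_const.mul (continuous_const.mul (tame (hD2 a c d e)).1))
      (fun a c => (tame (hX a c)).2)
      (fun a d c => ((Tame.const _).mul ((hD a c d).tame_slice v G h)).2)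
      (fun a e d c =>
        ((Tame.const _).mul ((Tame.const _).mul ((hD2 a c d e).tame_slice v G h))).2)
      (fun a d c r t => by simpa only [update_eq_upd] using hd1' a d c r t)
      (fun a k d c r t => by simpa only [update_eq_upd] using hd2' a k d c r t)
      (fun a k d c r => by rw [hsymm])
    have hpt : ∀ r : Fin m → ℝ, ∑ a, deltaX v (X a) (D a) G h (Rec.rv v r) ^ 2 =
        v * ∑ a, gDelta (fun c r => X a c G h (Rec.rv v r))
          (fun d c r => √v * D a c d G h (Rec.rv v r)) r ^ 2 := by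
      intro r
      rw [mul_sum]
      refine sum_congr rfl fun a _ => ?_
      have es : deltaX v (X a) (D a) G h (Rec.rv v r) = √v * gDelta (fun c r => X a c G h (Rec.rv v r))
          (fun d c r => √v * D a c d G h (Rec.rv v r)) r := by
        simp only [deltaX, gDelta, mul_sum]
        refine sum_congr rfl fun c _ => ?_
        simp only [Rec.rv]
        show _ = _
        linear_combination (D a c c G h (Rec.rv v r)) * Real.mul_self_sqrt hv0
      rw [es, mul_pow, Real.sq_sqrt hv0]
    simp only [rowMean, hpt, integral_const_mul]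
    refine (mul_le_mul_of_nonneg_left h1 hv0).trans_eq ?_
    simp only [mul_pow, Real.sq_sqrt hv0, ← mul_sum, integral_const_mul]
    simp only [fun a (r : Fin m → ℝ) => sum_comm (s := (univ : Finset (Fin m)))
      (t := (univ : Finset (Fin m))) (f := fun d c => D a c d G h (Rec.rv v r) ^ 2)]
    ring
  have eA' : pEv b n (m + 1) τ (fun J u => ∑ a, at3 i (deltaX v (X a) (D a)) J u ^ 2) = _ := eA
  have eB' : pEv b n (m + 1) τ (fun J u => ∑ a, ∑ c, at3 i (X a c) J u ^ 2) = _ := eB
  have eC' : pEv b n (m + 1) τ (fun J u => ∑ a, ∑ c, ∑ d, at3 i (D a c d) J u ^ 2) = _ := eC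
  rw [eA', eB', eC', ← integral_const_mul, ← integral_const_mul,
    ← integral_add (iB.const_mul v) (iC.const_mul (v ^ 2))]
  exact integral_mono iA ((iB.const_mul v).add (iC.const_mul (v ^ 2))) fun g => hle _ _

end planted

end Vale.Agent.P150.Weak.RespSoft
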